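import Vale.Agent.P050.R2.H300.Defs
import Mathlib.Combinatorics.SimpleGraph.Connectivity.Connected

set_option linter.all false

/-!
Densities of graphs and their connected components.
-/

open MeasureTheory Finset

namespace Vale.Agent.P050.Opt.H261

open Vale.Agent.P050 Vale.Agent.P050.Dense

section

variable {V : Type} [Fintype V] [DecidableEq V] {X : Type} [Fintype X]

/-- the component of an edge -/
noncomputable def ecomp (H : SimpleGraph V) (e : Sym2 V) : H.ConnectedComponent :=
  H.connectedComponentMk (Quot.out e).1

omit [Fintype V] [DecidableEq V] in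
theorem ecomp_eq (H : SimpleGraph V) {u v : V} (h : H.Adj u v) :
    ecomp H s(u, v) = H.connectedComponentMk u := by
  unfold ecomp
  have h1 : (Quot.out (s(u, v) : Sym2 V)).1 ∈ (s(u, v) : Sym2 V) := by
    exact Sym2.out_fst_mem _
  rw [Sym2.mem_iff] at h1
  rcases h1 with h1 | h1
  · rw [h1]
  · rw [h1]
    exact SimpleGraph.ConnectedComponent.sound h.symm.reachable

variable (H : SimpleGraph V) [DecidableRel H.Adj] [Fintype H.ConnectedComponent]
  [DecidableEq H.ConnectedComponent]
  [∀ c : H.ConnectedComponent, Fintype c.supp] [∀ c : H.ConnectedComponent, DecidableEq c.supp]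
  [∀ c : H.ConnectedComponent, DecidableRel (H.induce c.supp).Adj]

omit [Fintype H.ConnectedComponent] in
theorem edge_fiber (c : H.ConnectedComponent) :
    H.edgeFinset.filter (fun e => ecomp H e = c)
      = (H.induce c.supp).edgeFinset.image (Sym2.map Subtype.val) := by
  ext e
  induction e using Sym2.ind with
  | _ u v =>
    simp only [Finset.mem_filter, SimpleGraph.mem_edgeFinset, SimpleGraph.mem_edgeSet,
      Finset.mem_image]
    constructor
    · rintro ⟨h, h1⟩
      rw [ecomp_eq H h] at h1
      have hu : u ∈ c.supp := h1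
      have hv : v ∈ c.supp := by
        show H.connectedComponentMk v = c
        rw [← h1]
        exact SimpleGraph.ConnectedComponent.sound h.symm.reachable
      refine ⟨s(⟨u, hu⟩, ⟨v, hv⟩), ?_, rfl⟩
      rw [SimpleGraph.mem_edgeSet]
      exact h
    · rintro ⟨e', h, h1⟩
      induction e' using Sym2.ind with
      | _ a b =>
        rw [SimpleGraph.mem_edgeSet] at h
        have h2 : H.Adj a.1 b.1 := h
        rw [Sym2.map_mk] at h1
        have h3 : H.Adj u v := by
          rw [← SimpleGraph.mem_edgeSet, ← h1]
          exact h2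
        refine ⟨h3, ?_⟩
        rw [← h1]
        show ecomp H s(a.1, b.1) = c
        rw [ecomp_eq H h2]
        exact a.2

theorem comp_prod_edges (φ : Sym2 V → ℝ) :
    ∏ e ∈ H.edgeFinset, φ e
      = ∏ c : H.ConnectedComponent, ∏ e ∈ (H.induce c.supp).edgeFinset,
          φ (Sym2.map Subtype.val e) := by
  rw [← Finset.prod_fiberwise_of_maps_to (t := (Finset.univ : Finset H.ConnectedComponent))
    (g := ecomp H) (fun e _ => Finset.mem_univ _)]
  refine Finset.prod_congr rfl fun c _ => ?_
  rw [edge_fiber, Finset.prod_image]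
  intro a _ b _ hab
  exact Sym2.map.injective Subtype.val_injective hab

theorem card_edges :
    H.edgeFinset.card = ∑ c : H.ConnectedComponent, (H.induce c.supp).edgeFinset.card := by
  rw [Finset.card_eq_sum_card_fiberwise (t := (Finset.univ : Finset H.ConnectedComponent))
    (f := ecomp H) (fun e _ => Finset.mem_coe.2 (Finset.mem_univ _))]
  refine Finset.sum_congr rfl fun c _ => ?_
  rw [edge_fiber, Finset.card_image_of_injective _ (Sym2.map.injective Subtype.val_injective)]

/-- vertices and components -/
def sigSupp (H : SimpleGraph V) : (Σ c : H.ConnectedComponent, c.supp) ≃ V where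
  toFun p := p.2.1
  invFun v := ⟨H.connectedComponentMk v, ⟨v, rfl⟩⟩
  left_inv := by
    rintro ⟨c, v, hv⟩
    have h : H.connectedComponentMk v = c := hv
    subst h
    rfl
  right_inv _ := rfl

omit [DecidableEq V] [DecidableRel H.Adj] [DecidableEq H.ConnectedComponent]
  [∀ c : H.ConnectedComponent, DecidableEq c.supp]
  [∀ c : H.ConnectedComponent, DecidableRel (H.induce c.supp).Adj] in
theorem card_supp :
    Fintype.card V = ∑ c : H.ConnectedComponent, Fintype.card c.supp := by
  rw [← Fintype.card_sigma, Fintype.card_congr (sigSupp H)]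

theorem sum_prod (W : X → X → ℝ) (hs : ∀ x y, W x y = W y x) :
    ∑ z : V → X, ∏ e ∈ H.edgeFinset, ev W hs z e
      = ∏ c : H.ConnectedComponent, ∑ z : c.supp → X,
          ∏ e ∈ (H.induce c.supp).edgeFinset, ev W hs z e := by
  rw [Finset.prod_univ_sum, Fintype.piFinset_univ]
  refine Fintype.sum_equiv (((sigSupp H).symm.arrowCongr (Equiv.refl X)).trans
    (Equiv.piCurry (fun (_ : H.ConnectedComponent) _ => X))) _ _ fun z => ?_
  rw [comp_prod_edges]
  refine Finset.prod_congr rfl fun c _ => ?_
  refine Finset.prod_congr rfl fun e _ => ?_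
  induction e using Sym2.ind with
  | _ a b => rfl

theorem tden_comp (W : X → X → ℝ) (hs : ∀ x y, W x y = W y x) :
    tden H W hs = ∏ c : H.ConnectedComponent, tden (H.induce c.supp) W hs := by
  unfold tden
  rw [Finset.prod_div_distrib, Finset.prod_pow_eq_pow_sum, ← card_supp H, ← sum_prod]

end

/-- densities of the components suffice; the instances in the hypothesis are arbitrary -/
theorem pden_le_of_conn {V X : Type} [Fintype V] [DecidableEq V] [Fintype X]
    (H : SimpleGraph V) [DecidableRel H.Adj] {W : X → X → ℝ} (hs : ∀ x y, W x y = W y x)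
    (h0 : ∀ x y, 0 ≤ W x y)
    (h : ∀ c : H.ConnectedComponent, ∀ [Fintype c.supp] [DecidableEq c.supp]
      [DecidableRel (H.induce c.supp).Adj],
      pden W ^ (H.induce c.supp).edgeFinset.card ≤ tden (H.induce c.supp) W hs) :
    pden W ^ H.edgeFinset.card ≤ tden H W hs := by
  classical
  have hp : 0 ≤ pden W := by
    unfold pden
    exact div_nonneg (Finset.sum_nonneg fun x _ => Finset.sum_nonneg fun y _ => h0 x y)
      (by positivity)
  rw [tden_comp H, card_edges H, ← Finset.prod_pow_eq_pow_sum]
  exact Finset.prod_le_prod (fun c _ => pow_nonneg hp _) fun c _ => h c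

/-- the components are connected -/
theorem comp_conn {V : Type} (H : SimpleGraph V) (c : H.ConnectedComponent) :
    (H.induce c.supp).Connected :=
  c.connected_toSimpleGraph

theorem induce_bip {V : Type} {H : SimpleGraph V} (h : H.IsBipartite) (s : Set V) :
    (H.induce s).IsBipartite :=
  SimpleGraph.Colorable.of_hom (SimpleGraph.Embedding.induce s).toHom h

theorem induce_deg {V : Type} [Finite V] {H : SimpleGraph V} {D : ℕ}
    (h : ∀ v, (H.neighborSet v).ncard ≤ D) (s : Set V) (v : s) :
    ((H.induce s).neighborSet v).ncard ≤ D := by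
  refine le_trans ?_ (h v.1)
  rw [← Set.ncard_image_of_injective _ Subtype.val_injective]
  refine Set.ncard_le_ncard ?_ (Set.toFinite _)
  rintro _ ⟨w, hw, rfl⟩
  exact hw

end Vale.Agent.P050.Opt.H261
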