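import Vale.Agent.P050.O.H322.Kpow

set_option linter.all false

/-!
Walks of even length.
-/

open Finset

namespace Vale.Agent.P050.Opt.H261

open Vale.Agent.P050 Vale.Agent.P050.Dense Vale.Agent.P050.Opt

section

variable {X : Type} [Fintype X] [DecidableEq X]

/-- the number of weighted walks -/
noncomputable def wk (A : Matrix X X ℝ) (n : ℕ) : ℝ := ∑ x, ∑ y, (A ^ n) x y

theorem wk_add {A : Matrix X X ℝ} (hA : A.transpose = A) (i j : ℕ) :
    wk A (i + j) = ∑ z, (∑ x, (A ^ i) z x) * ∑ y, (A ^ j) z y := by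
  have h1 : ∀ x z, (A ^ i) x z = (A ^ i) z x := by
    intro x z
    have h2 : (A ^ i).transpose = A ^ i := by rw [Matrix.transpose_pow, hA]
    calc (A ^ i) x z = (A ^ i).transpose z x := rfl
      _ = (A ^ i) z x := by rw [h2]
  unfold wk
  simp only [pow_add, Matrix.mul_apply, Finset.sum_mul, Finset.mul_sum]
  calc ∑ x, ∑ y, ∑ z, (A ^ i) x z * (A ^ j) z y
      = ∑ x, ∑ z, ∑ y, (A ^ i) x z * (A ^ j) z y :=
        Finset.sum_congr rfl fun x _ => Finset.sum_comm
    _ = ∑ z, ∑ x, ∑ y, (A ^ i) x z * (A ^ j) z y := Finset.sum_comm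
    _ = ∑ z, ∑ y, ∑ x, (A ^ i) z y * (A ^ j) z x := by
        refine Finset.sum_congr rfl fun z _ => ?_
        refine Finset.sum_congr rfl fun x _ => ?_
        refine Finset.sum_congr rfl fun y _ => ?_
        rw [h1 x z]
    _ = _ := by
        refine Finset.sum_congr rfl fun z _ => ?_
        first | rfl | rw [Finset.sum_comm]

theorem wk_cs {A : Matrix X X ℝ} (hA : A.transpose = A) (i j : ℕ) :
    wk A (i + j) ^ 2 ≤ wk A (i + i) * wk A (j + j) := by
  rw [wk_add hA i j, wk_add hA i i, wk_add hA j j]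
  have h := Finset.sum_mul_sq_le_sq_mul_sq Finset.univ (fun z => ∑ x, (A ^ i) z x)
    (fun z => ∑ y, (A ^ j) z y)
  simpa only [sq] using h

theorem wk_even_nonneg {A : Matrix X X ℝ} (hA : A.transpose = A) (i : ℕ) :
    0 ≤ wk A (i + i) := by
  rw [wk_add hA i i]
  exact Finset.sum_nonneg fun z _ => mul_self_nonneg _

theorem wk_zero (A : Matrix X X ℝ) : wk A 0 = Fintype.card X := by
  unfold wk
  simp only [pow_zero, Matrix.one_apply, Finset.sum_ite_eq, Finset.mem_univ, if_true,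
    Finset.sum_const, nsmul_eq_mul, mul_one, Finset.card_univ]

theorem wk_ratio {A : Matrix X X ℝ} (hA : A.transpose = A) (k : ℕ) :
    wk A 2 * wk A (k + k) ≤ wk A 0 * wk A ((k + 1) + (k + 1)) := by
  induction k with
  | zero => exact le_of_eq (mul_comm _ _)
  | succ k ih =>
    have h1 : wk A ((k + 1) + (k + 1)) ^ 2 ≤ wk A (k + k) * wk A ((k + 2) + (k + 2)) := by
      have h := wk_cs hA k (k + 2)
      rwa [show k + (k + 2) = (k + 1) + (k + 1) from by ring] at h
    have h0 := wk_even_nonneg hA k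
    have h2 := wk_even_nonneg hA (k + 1)
    have h3 := wk_even_nonneg hA (k + 2)
    have h4 : 0 ≤ wk A 0 := by rw [wk_zero]; positivity
    rcases h0.eq_or_lt with h5 | h5
    · have h6 : wk A ((k + 1) + (k + 1)) = 0 := by
        rw [← h5, zero_mul] at h1
        exact pow_eq_zero_iff (two_ne_zero) |>.1 (le_antisymm h1 (sq_nonneg _))
      rw [h6, mul_zero]
      exact mul_nonneg h4 h3
    · have h7 : wk A (k + k) * (wk A 2 * wk A ((k + 1) + (k + 1)))
          ≤ wk A (k + k) * (wk A 0 * wk A ((k + 2) + (k + 2))) := by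
        calc wk A (k + k) * (wk A 2 * wk A ((k + 1) + (k + 1)))
            = (wk A 2 * wk A (k + k)) * wk A ((k + 1) + (k + 1)) := by ring
          _ ≤ (wk A 0 * wk A ((k + 1) + (k + 1))) * wk A ((k + 1) + (k + 1)) :=
              mul_le_mul_of_nonneg_right ih h2
          _ = wk A 0 * wk A ((k + 1) + (k + 1)) ^ 2 := by ring
          _ ≤ wk A 0 * (wk A (k + k) * wk A ((k + 2) + (k + 2))) :=
              mul_le_mul_of_nonneg_left h1 h4
          _ = _ := by ring
      exact le_of_mul_le_mul_left h7 h5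

theorem wk_pow {A : Matrix X X ℝ} (hA : A.transpose = A) (k : ℕ) :
    wk A 2 ^ (k + 1) ≤ wk A 0 ^ k * wk A ((k + 1) + (k + 1)) := by
  have h4 : 0 ≤ wk A 0 := by rw [wk_zero]; positivity
  have h2 : 0 ≤ wk A 2 := wk_even_nonneg hA 1
  induction k with
  | zero => simp
  | succ k ih =>
    calc wk A 2 ^ (k + 1 + 1) = wk A 2 * wk A 2 ^ (k + 1) := by ring
      _ ≤ wk A 2 * (wk A 0 ^ k * wk A ((k + 1) + (k + 1))) := mul_le_mul_of_nonneg_left ih h2
      _ = wk A 0 ^ k * (wk A 2 * wk A ((k + 1) + (k + 1))) := by ring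
      _ ≤ wk A 0 ^ k * (wk A 0 * wk A ((k + 1 + 1) + (k + 1 + 1))) :=
          mul_le_mul_of_nonneg_left (wk_ratio hA (k + 1)) (pow_nonneg h4 _)
      _ = _ := by ring

end

/-- J4: walks of even length -/
theorem pden_kpow_even {X : Type} [Fintype X] [DecidableEq X] [Nonempty X] {W : X → X → ℝ}
    (hs : ∀ x y, W x y = W y x) (h0 : ∀ x y, 0 ≤ W x y) {k : ℕ} (hk : 1 ≤ k) :
    pden W ^ (2 * k) ≤ pden (kpow W (2 * k)) := by
  have hA : (Matrix.of W).transpose = Matrix.of W := by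
    ext a b
    exact hs b a
  obtain ⟨j, rfl⟩ : ∃ j, k = j + 1 := ⟨k - 1, by omega⟩
  set n : ℝ := (Fintype.card X : ℝ) with hn
  have hn0 : 0 < n := by
    rw [hn]
    exact_mod_cast Fintype.card_pos
  have e1 : pden W = wk (Matrix.of W) 1 / n ^ 2 := by
    unfold pden wk
    simp only [pow_one, Matrix.of_apply]
    rfl
  have e2 : pden (kpow W (2 * (j + 1))) =
      wk (Matrix.of W) (2 * (j + 1)) / n ^ (2 * (j + 1) - 1) / n ^ 2 := by
    unfold pden wk kpow
    simp only [Finset.sum_div]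
    rfl
  rw [e1, e2, div_pow, div_div, ← pow_mul, ← pow_add]
  have h1 : wk (Matrix.of W) 1 ^ 2 ≤ n * wk (Matrix.of W) 2 := by
    have h := wk_cs hA 0 1
    rw [wk_zero] at h
    exact h
  have h2 : 0 ≤ wk (Matrix.of W) 2 := wk_even_nonneg hA 1
  have h3 : wk (Matrix.of W) 1 ^ (2 * (j + 1)) ≤
      n ^ (2 * j + 1) * wk (Matrix.of W) (2 * (j + 1)) := by
    have h4 := wk_pow hA j
    rw [wk_zero] at h4
    calc wk (Matrix.of W) 1 ^ (2 * (j + 1)) = (wk (Matrix.of W) 1 ^ 2) ^ (j + 1) := by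
          rw [pow_mul]
      _ ≤ (n * wk (Matrix.of W) 2) ^ (j + 1) := pow_le_pow_left₀ (sq_nonneg _) h1 _
      _ = n ^ (j + 1) * wk (Matrix.of W) 2 ^ (j + 1) := by rw [mul_pow]
      _ ≤ n ^ (j + 1) * (n ^ j * wk (Matrix.of W) ((j + 1) + (j + 1))) :=
          mul_le_mul_of_nonneg_left h4 (pow_nonneg hn0.le _)
      _ = _ := by
          rw [show (j + 1) + (j + 1) = 2 * (j + 1) from by ring]
          ring
  rw [div_le_div_iff₀ (by positivity) (by positivity)]
  calc wk (Matrix.of W) 1 ^ (2 * (j + 1)) * n ^ (2 * (j + 1) - 1 + 2)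
      ≤ (n ^ (2 * j + 1) * wk (Matrix.of W) (2 * (j + 1))) * n ^ (2 * (j + 1) - 1 + 2) :=
        mul_le_mul_of_nonneg_right h3 (by positivity)
    _ = wk (Matrix.of W) (2 * (j + 1)) * n ^ (2 * (2 * (j + 1))) := by
        rw [mul_comm (n ^ (2 * j + 1)), mul_assoc, ← pow_add]
        congr 2
        omega

end Vale.Agent.P050.Opt.H261
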