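import Vale.Agent.P050.O.H300.EntDefs

set_option linter.all false

/-!
Dense targets, graphs built by gluing: Gibbs' inequality.
-/

open MeasureTheory Finset

namespace Vale.Agent.P050.Opt

open Vale.Agent.P050 Vale.Agent.P050.Dense

section

variable {V : Type} [Fintype V] [DecidableEq V] {Ω : Type} [Fintype Ω] [DecidableEq Ω]

lemma H261.mH_nonneg (H : SimpleGraph V) {w : Ω → ℝ} {U : Sym2 Ω → ℝ} (hw : Wt w U)
    (z : V → Ω) : 0 ≤ mH H w U z :=
  mul_nonneg (prod_nonneg fun v _ => (hw.pos _).le) (prod_nonneg fun e _ => hw.nn _)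

/-- one-point form of Gibbs' inequality -/
lemma H261.gibbs_point {g m K Z : ℝ} (hg : 0 ≤ g) (hm : 0 ≤ m) (hK : 0 < K) (hZ : 0 < Z)
    (h0 : m = 0 → g = 0) :
    g * Real.log K ≤ g * Real.log (g / m) + (m * K / Z - g + g * Real.log Z) := by
  rcases hg.eq_or_lt with h | h
  · rw [← h]
    have : 0 ≤ m * K / Z := by positivity
    linarith
  · have hm' : 0 < m := lt_of_le_of_ne hm fun e => h.ne' (h0 e.symm)
    have h1 := Real.log_le_sub_one_of_pos (x := m * K / (g * Z)) (by positivity)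
    have h2 : Real.log (m * K / (g * Z)) = Real.log K - Real.log (g / m) - Real.log Z := by
      rw [Real.log_div (by positivity) (by positivity), Real.log_mul hm'.ne' hK.ne',
        Real.log_mul h.ne' hZ.ne', Real.log_div h.ne' hm'.ne']
      ring
    rw [h2] at h1
    have h3 := mul_le_mul_of_nonneg_left h1 h.le
    have h4 : g * (m * K / (g * Z) - 1) = m * K / Z - g := by
      field_simp
    rw [h4] at h3
    linarith

/-- sums of one-vertex functions in a law with given marginals -/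
lemma H261.sum_marg {w : Ω → ℝ} {g : (V → Ω) → ℝ}
    (hg : ∀ v s, ∑ z ∈ univ.filter (fun z : V → Ω => z v = s), g z = w s) (v : V) (f : Ω → ℝ) :
    ∑ z, g z * f (z v) = ∑ s, w s * f s := by
  rw [← Finset.sum_fiberwise univ (fun z : V → Ω => z v)]
  refine sum_congr rfl fun s _ => ?_
  rw [← hg v s, sum_mul]
  refine sum_congr rfl fun z hz => ?_
  rw [(mem_filter.1 hz).2]

/-- E1: Gibbs' inequality -/
theorem ent_log {H : SimpleGraph V} {w : Ω → ℝ} {U : Sym2 Ω → ℝ} (hw : Wt w U)
    (hE : Ent H w U) (k : V → Ω → ℝ) (hk : ∀ v s, 0 < k v s) :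
    0 < ∑ z, mH H w U z * ∏ v, k v (z v) ∧
    ∑ v, ∑ s, w s * Real.log (k v s) ≤ Real.log (∑ z, mH H w U z * ∏ v, k v (z v)) := by
  obtain ⟨g, hg0, hg1, hgm, hgz, hgl⟩ := hE
  have hK : ∀ z : V → Ω, 0 < ∏ v, k v (z v) := fun z => prod_pos fun v _ => hk v _
  have hnn : ∀ z, 0 ≤ mH H w U z := H261.mH_nonneg H hw
  have hZ : 0 < ∑ z, mH H w U z * ∏ v, k v (z v) := by
    refine sum_pos' (fun z _ => mul_nonneg (hnn z) (hK z).le) ?_
    by_contra hcon
    have h1 : ∀ z, g z = 0 := by
      intro z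
      refine hgz z (le_antisymm ?_ (hnn z))
      by_contra h3
      exact hcon ⟨z, mem_univ z, mul_pos (not_le.1 h3) (hK z)⟩
    simp [h1] at hg1
  refine ⟨hZ, ?_⟩
  set Z := ∑ z, mH H w U z * ∏ v, k v (z v) with hZdef
  have h1 : ∑ v, ∑ s, w s * Real.log (k v s) = ∑ z, g z * Real.log (∏ v, k v (z v)) := by
    have h2 : ∀ z : V → Ω, g z * Real.log (∏ v, k v (z v)) =
        ∑ v, g z * Real.log (k v (z v)) := by
      intro z
      rw [Real.log_prod fun v _ => (hk v _).ne', mul_sum]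
    rw [sum_congr rfl fun z _ => h2 z]
    refine Eq.trans ?_ sum_comm
    exact sum_congr rfl fun v _ => (H261.sum_marg hgm v fun s => Real.log (k v s)).symm
  rw [h1]
  calc ∑ z, g z * Real.log (∏ v, k v (z v))
      ≤ ∑ z, (g z * Real.log (g z / mH H w U z) +
          (mH H w U z * (∏ v, k v (z v)) / Z - g z + g z * Real.log Z)) :=
        sum_le_sum fun z _ => H261.gibbs_point (hg0 z) (hnn z) (hK z) hZ (hgz z)
    _ = ∑ z, g z * Real.log (g z / mH H w U z) + (Z / Z - 1 + 1 * Real.log Z) := by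
        rw [sum_add_distrib, sum_add_distrib, sum_sub_distrib, ← sum_div, ← sum_mul, hg1]
    _ ≤ Real.log Z := by
        rw [div_self hZ.ne']
        linarith

end

end Vale.Agent.P050.Opt
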