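import Vale.Agent.P050.O.H261.Dom

set_option linter.all false

/-!
Dense targets, graphs built by gluing: a vertex adjacent to the whole opposite part.
-/

open MeasureTheory Finset

namespace Vale.Agent.P050.Opt

open Vale.Agent.P050 Vale.Agent.P050.Dense

section

variable {V : Type} [Fintype V] [DecidableEq V] {Ω : Type} [Fintype Ω] [DecidableEq Ω]

/-- E4: a vertex adjacent to the whole opposite part -/
theorem ent_dom (H : SimpleGraph V) (a : V) (h : ∀ u v, H.Adj u v → (H.Adj a u ↔ ¬ H.Adj a v))
    {w : Ω → ℝ} {U : Sym2 Ω → ℝ} (hw : Wt w U) : Ent H w U :=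
  H261.dom H a h hw

end

end Vale.Agent.P050.Opt
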