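import Vale.Agent.P050.O.H300.Defs

set_option linter.all false

/-!
Dense targets, optimal order, [B]: one-body weights.
-/

open MeasureTheory Finset

namespace Vale.Agent.P050.Opt

open Vale.Agent.P050 Vale.Agent.P050.Dense

namespace H261

/-- `u - 1 - log u ≥ (2/5) (u - 1)^2` for `u` near `1` -/
theorem log_le {t : ℝ} (ht : |t| ≤ 1 / 11) : Real.log (1 + t) ≤ t - 2 / 5 * t ^ 2 := by
  have h1 : |-t| < 1 := by rw [abs_neg]; linarith
  have h2 := Real.abs_log_sub_add_sum_range_le h1 2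
  rw [abs_neg] at h2
  simp only [Finset.sum_range_succ, Finset.sum_range_zero] at h2
  have h3 : (1 : ℝ) - -t = 1 + t := by ring
  rw [h3] at h2
  have h4 := (abs_le.1 h2).2
  have h5 : |t| ^ (2 + 1) / (1 - |t|) ≤ 1 / 10 * t ^ 2 := by
    rw [div_le_iff₀ (by linarith)]
    have h6 : |t| ^ (2 + 1) = |t| * t ^ 2 := by
      rw [pow_succ, sq_abs]; ring
    rw [h6]
    nlinarith [sq_nonneg t, abs_nonneg t]
  norm_num at h4
  linarith [sq_nonneg t, h5, h4]

/-- bounds of the powers -/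
theorem pow_bd {r θ : ℝ} {a : ℕ} (ha : 1 ≤ a) (hr : |r - 1| ≤ 2 * θ) (hθ : a * θ ≤ 1 / 100) :
    0 < r ∧ |r ^ a - 1| ≤ 1 / 45 := by
  have h0 : 0 ≤ θ := by linarith [abs_nonneg (r - 1)]
  have ha' : (1 : ℝ) ≤ a := by exact_mod_cast ha
  have h1 : θ ≤ 1 / 100 := by nlinarith
  obtain ⟨h2, h3⟩ := abs_le.1 hr
  have hpos : 0 < r := by linarith
  refine ⟨hpos, abs_le.2 ⟨?_, ?_⟩⟩
  · have h4 := one_add_mul_le_pow (show (-2 : ℝ) ≤ -(2 * θ) by linarith) a
    have h5 : (1 + -(2 * θ)) ^ a ≤ r ^ a :=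
      pow_le_pow_left₀ (by linarith) (by linarith) a
    nlinarith
  · have h4 : r ^ a ≤ Real.exp (2 * θ) ^ a := by
      refine pow_le_pow_left₀ hpos.le ?_ a
      linarith [Real.add_one_le_exp (2 * θ)]
    rw [← Real.exp_nat_mul] at h4
    have h5 : (a : ℝ) * (2 * θ) ≤ 1 / 50 := by linarith
    have h6 : Real.exp ((a : ℝ) * (2 * θ)) ≤ Real.exp (1 / 50) := Real.exp_le_exp.2 h5
    have h7 : Real.exp (1 / 50) ≤ 1 + 1 / 45 := by
      have h8 := Real.add_one_le_exp (-(1 / 50 : ℝ))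
      have h9 : Real.exp (1 / 50) * Real.exp (-(1 / 50)) = 1 := by
        rw [← Real.exp_add]; simp
      nlinarith [Real.exp_pos (1 / 50 : ℝ)]
    linarith

/-- the pointwise inequality -/
theorem pointwise {r θ : ℝ} {a : ℕ} (ha : 1 ≤ a) (hr : |r - 1| ≤ 2 * θ)
    (hθ : a * θ ≤ 1 / 100) :
    2 / 5 * (r ^ a - 1) ^ 2 ≤ r ^ a - 1 + a * (1 / r - 1) := by
  obtain ⟨h1, h2⟩ := pow_bd ha hr hθ
  have h3 := log_le (t := r ^ a - 1) (by linarith)
  rw [add_sub_cancel, Real.log_pow] at h3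
  have h4 := Real.one_sub_inv_le_log_of_pos h1
  have h5 : (a : ℝ) * (1 - r⁻¹) ≤ a * Real.log r :=
    mul_le_mul_of_nonneg_left h4 (Nat.cast_nonneg a)
  rw [one_div]
  linarith

end H261

/-- [B] one-body weights -/
theorem one_body {Ω : Type*} [MeasurableSpace Ω] (μ : Measure Ω) [IsProbabilityMeasure μ]
    {r : Ω → ℝ} (hm : Measurable r) {θ : ℝ} (hr : ∀ s, |r s - 1| ≤ 2 * θ)
    (hint : ∫ s, 1 / r s ∂μ = 1) {a : ℕ} (ha : a * θ ≤ 1 / 100) {A : ℝ}
    (hA : A = ∫ s, r s ^ a ∂μ) :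
    1 ≤ A ∧ ∫ s, (r s ^ a / A - 1) ∂μ = 0 ∧ (∀ s, |r s ^ a / A - 1| ≤ 1 / 2) ∧
      BM (fun s => r s ^ a / A - 1) ∧
      2 / 5 * ∫ s, (r s ^ a / A - 1) ^ 2 ∂μ ≤ Real.log A := by
  rcases Nat.eq_zero_or_pos a with h0 | hpos
  · subst h0
    have hA1 : A = 1 := by rw [hA]; simp
    subst hA1
    refine ⟨le_rfl, by simp, fun s => by simp, by simpa using BM.const (X := Ω) (1 / 1 - 1), by simp⟩
  · have hb := fun s => H261.pow_bd hpos (hr s) ha
    have hu : BM (fun s => r s ^ a) := by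
      refine ⟨hm.pow_const a, 2, fun s => ?_⟩
      obtain ⟨h1, h2⟩ := abs_le.1 (hb s).2
      rw [abs_le]
      constructor <;> linarith
    have hθ1 : ∀ s, 98 / 100 ≤ r s := by
      intro s
      have h1 := hr s
      have h2 : 0 ≤ θ := by linarith [abs_nonneg (r s - 1)]
      have ha' : (1 : ℝ) ≤ a := by exact_mod_cast hpos
      have h3 : θ ≤ 1 / 100 := by nlinarith
      linarith [(abs_le.1 h1).1]
    have hv : BM (fun s => 1 / r s) := by
      refine ⟨measurable_const.div hm, 2, fun s => ?_⟩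
      have h1 := hθ1 s
      rw [abs_of_nonneg (by positivity), div_le_iff₀ (by linarith)]
      linarith
    -- the first moment
    have h1 : 2 / 5 * ∫ s, (r s ^ a - 1) ^ 2 ∂μ ≤ A - 1 := by
      have h2 : ∫ s, 2 / 5 * (r s ^ a - 1) ^ 2 ∂μ ≤
          ∫ s, (r s ^ a - 1 + a * (1 / r s - 1)) ∂μ := by
        refine integral_mono ?_ ?_ fun s => H261.pointwise hpos (hr s) ha
        · exact (BM.integrable ((BM.const _).mul ((hu.sub (BM.const 1)).pow 2)) μ)
        · exact (BM.integrable ((hu.sub (BM.const 1)).add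
            ((BM.const _).mul (hv.sub (BM.const 1)))) μ)
      rw [integral_const_mul] at h2
      have h3 : ∫ s, (r s ^ a - 1 + a * (1 / r s - 1)) ∂μ = A - 1 := by
        rw [integral_add (BM.integrable (hu.sub (BM.const 1)) μ)
          (BM.integrable ((BM.const _).mul (hv.sub (BM.const 1))) μ), integral_const_mul,
          integral_sub (BM.integrable hu μ) (BM.integrable (BM.const 1) μ),
          integral_sub (BM.integrable hv μ) (BM.integrable (BM.const 1) μ), hint, ← hA]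
        simp
      rwa [h3] at h2
    have h2 : 0 ≤ ∫ s, (r s ^ a - 1) ^ 2 ∂μ := integral_nonneg fun s => sq_nonneg _
    have hA1 : 1 ≤ A := by linarith
    have hA2 : A ≤ 1 + 1 / 45 := by
      rw [hA]
      have h3 : ∫ s, r s ^ a ∂μ ≤ ∫ _s, (1 + 1 / 45 : ℝ) ∂μ := by
        refine integral_mono (BM.integrable hu μ) (BM.integrable (BM.const _) μ) fun s => ?_
        have := (abs_le.1 (hb s).2).2
        simp only
        linarith
      simpa using h3
    have hA0 : 0 < A := by linarith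
    have hR : BM (fun s => r s ^ a / A - 1) := by
      have := (hu.mul (BM.const A⁻¹)).sub (BM.const 1)
      simpa [div_eq_mul_inv] using this
    have hzero : ∫ s, (r s ^ a / A - 1) ∂μ = 0 := by
      rw [integral_sub (by simpa [div_eq_mul_inv] using BM.integrable (hu.mul (BM.const A⁻¹)) μ)
        (BM.integrable (BM.const 1) μ), integral_div, ← hA, div_self hA0.ne']
      simp
    refine ⟨hA1, hzero, fun s => ?_, hR, ?_⟩
    · obtain ⟨h3, h4⟩ := abs_le.1 (hb s).2
      rw [abs_le]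
      constructor
      · have h5 : 1 / 2 ≤ r s ^ a / A := by
          rw [le_div_iff₀ hA0]; linarith
        linarith
      · have h5 : r s ^ a / A ≤ 3 / 2 := by
          rw [div_le_iff₀ hA0]; linarith
        linarith
    · -- the variance
      have h3 : ∫ s, (r s ^ a / A - 1) ^ 2 ∂μ ≤ (∫ s, (r s ^ a - 1) ^ 2 ∂μ) / A ^ 2 := by
        have h4 : ∫ s, (r s ^ a / A - 1) ^ 2 ∂μ =
            (∫ s, (r s ^ a - 1) ^ 2 ∂μ - (A - 1) ^ 2) / A ^ 2 := by
          have h5 : ∀ s, (r s ^ a / A - 1) ^ 2 =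
              ((r s ^ a - 1) ^ 2 - (2 * (A - 1) * r s ^ a - (A ^ 2 - 1))) / A ^ 2 := by
            intro s
            field_simp
            ring
          simp_rw [h5]
          rw [integral_div, integral_sub (BM.integrable ((hu.sub (BM.const 1)).pow 2) μ)
            (BM.integrable (((BM.const _).mul hu).sub (BM.const _)) μ),
            integral_sub (BM.integrable ((BM.const _).mul hu) μ) (BM.integrable (BM.const _) μ),
            integral_const_mul, ← hA]
          simp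
          ring
        rw [h4]
        gcongr
        linarith [sq_nonneg (A - 1)]
      have h4 : 2 / 5 * ∫ s, (r s ^ a / A - 1) ^ 2 ∂μ ≤ (A - 1) / A ^ 2 := by
        calc 2 / 5 * ∫ s, (r s ^ a / A - 1) ^ 2 ∂μ
            ≤ 2 / 5 * ((∫ s, (r s ^ a - 1) ^ 2 ∂μ) / A ^ 2) := by linarith
          _ = (2 / 5 * ∫ s, (r s ^ a - 1) ^ 2 ∂μ) / A ^ 2 := by ring
          _ ≤ (A - 1) / A ^ 2 := by gcongr
      have h5 : (A - 1) / A ^ 2 ≤ 1 - A⁻¹ := by
        have : 1 - A⁻¹ = (A - 1) / A := by field_simp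
        rw [this]
        apply div_le_div_of_nonneg_left (by linarith) hA0
        nlinarith
      linarith [Real.one_sub_inv_le_log_of_pos hA0]

end Vale.Agent.P050.Opt
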