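import Vale.Agent.P050.O.H15.Count

set_option linter.all false

/-!
Dense targets, optimal order, C3: the count of the cycles.  Every injective closed walk of length
`2 k` is a rotation of a canonical cycle or of its reflection.
-/

open Finset

namespace Vale.Agent.P050.Opt

open Vale.Agent.P050 Vale.Agent.P050.Dense

variable {V : Type*} [Fintype V] [DecidableEq V]

namespace H261

theorem hd_map (c : ℕ → V) : ∀ m : ℕ, hd (c m) ((List.range m).map c) = c 0
  | 0 => rfl
  | m + 1 => by rw [List.range_succ_eq_map]; rfl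

theorem mem_Wk_map {H : SimpleGraph V} [DecidableRel H.Adj] {Λ : Finset V} :
    ∀ (m : ℕ) (c : ℕ → V), (∀ i, i < m → H.Adj (c i) (c (i + 1))) →
      (∀ i i', i ≤ m → i' ≤ m → c i = c i' → i = i') → (∀ i, i < m → c i ∈ Λ) →
      (List.range m).map c ∈ Wk H (c m) Λ m
  | 0, c, _, _, _ => by simp [Wk]
  | m + 1, c, h1, h2, h3 => by
    have ih := mem_Wk_map (H := H) (Λ := Λ) m (fun i => c (i + 1))
      (fun i hi => h1 (i + 1) (by omega))
      (fun i i' hi hi' h => by
        have := h2 (i + 1) (i' + 1) (by omega) (by omega) h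
        omega)
      (fun i hi => h3 (i + 1) (by omega))
    have e : (List.range (m + 1)).map c = c 0 :: (List.range m).map (fun i => c (i + 1)) := by
      rw [List.range_succ_eq_map, List.map_cons, List.map_map]
      rfl
    rw [e]
    simp only [Wk, mem_biUnion, mem_image, mem_filter, mem_sdiff]
    refine ⟨(List.range m).map (fun i => c (i + 1)), ih, c 0, ⟨⟨h3 0 (by omega), ?_⟩, ?_⟩, rfl⟩
    · intro h
      rw [vs, mem_insert, List.mem_toFinset, List.mem_map] at h
      rcases h with h | ⟨i, hi, h⟩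
      · have := h2 0 (m + 1) (by omega) le_rfl h
        omega
      · rw [List.mem_range] at hi
        have := h2 (i + 1) 0 (by omega) (by omega) h
        omega
    · have := hd_map (fun i => c (i + 1)) m
      rw [this]
      exact (h1 0 (by omega)).symm

/-- canonical cycles from functions -/
theorem mem_Cyc {H : SimpleGraph V} [DecidableRel H.Adj] {o : V → ℕ} {k : ℕ} (hk : 2 ≤ k)
    (c : ℕ → V) (h1 : ∀ i, i + 1 < 2 * k → H.Adj (c i) (c (i + 1)))
    (h2 : H.Adj (c (2 * k - 1)) (c 0))
    (h3 : ∀ i i', i < 2 * k → i' < 2 * k → c i = c i' → i = i')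
    (h4 : ∀ i, i + 1 < 2 * k → o (c i) < o (c (2 * k - 1)))
    (h5 : o (c 0) < o (c (2 * k - 2))) :
    (c (2 * k - 1), c (2 * k - 2), (List.range (2 * k - 2)).map c) ∈ Cyc H o k := by
  unfold Cyc
  rw [mem_biUnion]
  refine ⟨c (2 * k - 1), mem_univ _, ?_⟩
  rw [mem_biUnion]
  refine ⟨c (2 * k - 2), ?_, ?_⟩
  · rw [mem_filter]
    refine ⟨mem_univ _, ?_, h4 _ (by omega)⟩
    have := h1 (2 * k - 2) (by omega)
    rw [show 2 * k - 2 + 1 = 2 * k - 1 by omega] at this
    exact this.symm
  · rw [mem_image]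
    refine ⟨(List.range (2 * k - 2)).map c, ?_, rfl⟩
    rw [mem_filter]
    refine ⟨?_, ?_, ?_⟩
    · refine mem_Wk_map (2 * k - 2) c (fun i hi => h1 i (by omega))
        (fun i i' hi hi' h => h3 i i' (by omega) (by omega) h) (fun i hi => ?_)
      rw [mem_filter]
      exact ⟨mem_univ _, h4 i (by omega)⟩
    · rw [hd_map]
      exact h2
    · rw [hd_map]
      exact h5

/-- the function of a canonical cycle -/
def dec (q : V × V × List V) (i : ℕ) : V := (q.2.2 ++ [q.2.1, q.1]).getD i q.1

theorem dec_map {k : ℕ} (hk : 2 ≤ k) (c : ℕ → V) (i : ℕ) (hi : i < 2 * k) :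
    dec (c (2 * k - 1), c (2 * k - 2), (List.range (2 * k - 2)).map c) i = c i := by
  have e : (List.range (2 * k - 2)).map c ++ [c (2 * k - 2), c (2 * k - 1)] =
      (List.range (2 * k)).map c := by
    have e1 : List.range (2 * k) = List.range (2 * k - 2) ++ [2 * k - 2, 2 * k - 1] := by
      obtain ⟨m, rfl⟩ : ∃ m, k = m + 1 := ⟨k - 1, by omega⟩
      rw [show 2 * (m + 1) = 2 * m + 1 + 1 by ring, List.range_succ, List.range_succ]
      simp
    rw [e1, List.map_append]
    rfl
  unfold dec
  simp only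
  rw [e, List.getD_eq_getElem _ _ (by simpa using hi)]
  simp

/-- the function `y` from the canonical cycle, the rotation and the reflection -/
def fn (k : ℕ) (p : ℕ × Bool × (V × V × List V)) (i : Fin (2 * k)) : V :=
  if p.2.1 then dec p.2.2 ((i + p.1) % (2 * k)) else dec p.2.2 ((p.1 + (2 * k - i)) % (2 * k))

end H261

open H261 in
/-- the number of injective closed walks of length `2 k` -/
theorem cyc_count (H : SimpleGraph V) [DecidableRel H.Adj] {o : V → ℕ}
    (ho : Function.Injective o) {k : ℕ} (hk : 2 ≤ k) (A : Finset (Fin (2 * k) → V))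
    (hA : ∀ y ∈ A, H15.IsCyc H k y) : A.card ≤ 4 * k * (Cyc H o k).card := by
  classical
  have hsub : A ⊆ ((range (2 * k)) ×ˢ ((univ : Finset Bool) ×ˢ Cyc H o k)).image (fn k) := by
    intro y hy
    obtain ⟨hinj, hadj⟩ := hA y hy
    have hn : 0 < 2 * k := by omega
    -- the periodic function
    obtain ⟨Y, hY⟩ : ∃ Y : ℕ → V, ∀ i, Y i = y ⟨i % (2 * k), Nat.mod_lt _ hn⟩ :=
      ⟨fun i => y ⟨i % (2 * k), Nat.mod_lt _ hn⟩, fun i => rfl⟩
    have hYy : ∀ i : Fin (2 * k), Y i = y i := by
      intro i
      rw [hY]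
      congr 1
      apply Fin.ext
      exact Nat.mod_eq_of_lt i.2
    have hYa : ∀ i, H.Adj (Y i) (Y (i + 1)) := by
      intro i
      rw [hY, hY]
      apply hadj
      simp only
      have h0 := Nat.mod_lt i hn
      rw [Nat.add_mod, Nat.mod_eq_of_lt (show 1 < 2 * k by omega)]
      rcases Nat.lt_or_ge (i % (2 * k) + 1) (2 * k) with h | h
      · left
        exact Nat.mod_eq_of_lt h
      · right
        have h' : i % (2 * k) + 1 = 2 * k := by omega
        exact ⟨h', by rw [h', Nat.mod_self]⟩
    have hYi : ∀ i i', Y i = Y i' → i % (2 * k) = i' % (2 * k) := by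
      intro i i' h
      rw [hY, hY] at h
      exact congrArg Fin.val (hinj h)
    have hYm : ∀ i i', i % (2 * k) = i' % (2 * k) → Y i = Y i' := by
      intro i i' h
      rw [hY, hY]
      congr 1
      exact Fin.ext h
    -- the maximum
    obtain ⟨i₀, -, hmax⟩ := exists_max_image (univ : Finset (Fin (2 * k))) (fun i => o (y i))
      ⟨⟨0, hn⟩, mem_univ _⟩
    have hlt : ∀ i : ℕ, i % (2 * k) ≠ i₀ → o (Y i) < o (Y i₀) := by
      intro i hi
      have h1 := hmax ⟨i % (2 * k), Nat.mod_lt _ hn⟩ (mem_univ _)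
      rw [← hY i, ← hYy i₀] at h1
      rcases lt_or_eq_of_le h1 with h | h
      · exact h
      · exfalso
        apply hi
        have := hYi _ _ (ho h)
        rw [this]
        exact Nat.mod_eq_of_lt i₀.2
    have hi₀ := i₀.2
    rw [mem_image]
    rcases lt_or_ge (o (Y (i₀ + 1))) (o (Y (i₀ + (2 * k - 1)))) with hor | hor
    · -- forward
      obtain ⟨c, hc⟩ : ∃ c : ℕ → V, ∀ i, c i = Y (i₀ + 1 + i) := ⟨_, fun i => rfl⟩
      have hc0 : c (2 * k - 1) = Y i₀ := by
        rw [hc]
        apply hYm
        rw [show (i₀ : ℕ) + 1 + (2 * k - 1) = i₀ + 2 * k by omega, Nat.add_mod_right]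
      refine ⟨(2 * k - 1 - i₀, true, (c (2 * k - 1), c (2 * k - 2),
        (List.range (2 * k - 2)).map c)), ?_, ?_⟩
      · rw [mem_product, mem_product]
        refine ⟨mem_range.2 (by simp only; omega), mem_univ _, ?_⟩
        refine mem_Cyc hk c ?_ ?_ ?_ ?_ ?_
        · intro i _
          rw [hc, hc]
          exact hYa _
        · rw [hc0, hc]
          exact hYa _
        · intro i i' h1 h2 h
          rw [hc, hc] at h
          have h3 := hYi _ _ h
          have h4 : (i : ℕ) ≡ i' [MOD 2 * k] := Nat.ModEq.add_left_cancel' _ h3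
          exact Nat.ModEq.eq_of_lt_of_lt h4 h1 h2
        · intro i hi
          rw [hc0, hc]
          apply hlt
          intro h
          have h3 : (i₀ + 1 + i : ℕ) % (2 * k) = (i₀ + 0) % (2 * k) := by
            rw [h, Nat.add_zero, Nat.mod_eq_of_lt hi₀]
          have h4 : (1 + i : ℕ) ≡ 0 [MOD 2 * k] := by
            apply Nat.ModEq.add_left_cancel' (i₀ : ℕ)
            rw [← add_assoc]
            exact h3
          have := Nat.ModEq.eq_of_lt_of_lt h4 (by omega) (by omega)
          omega
        · rw [hc, hc]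
          rw [show (i₀ : ℕ) + 1 + (2 * k - 2) = i₀ + (2 * k - 1) by omega]
          exact hor
      · funext i
        simp only [fn, if_true]
        rw [dec_map hk c _ (Nat.mod_lt _ hn), hc, ← hYy i]
        apply hYm
        have hi := i.2
        rw [Nat.add_mod, Nat.mod_mod, ← Nat.add_mod,
          show (i₀ : ℕ) + 1 + (i + (2 * k - 1 - i₀)) = i + 2 * k by omega, Nat.add_mod_right]
    · -- backward
      have hor' : o (Y (i₀ + (2 * k - 1))) < o (Y (i₀ + 1)) := by
        rcases lt_or_eq_of_le hor with h | h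
        · exact h
        · exfalso
          have h3 := hYi _ _ (ho h)
          have h4 : (2 * k - 1 : ℕ) ≡ 1 [MOD 2 * k] := Nat.ModEq.add_left_cancel' _ h3
          have := Nat.ModEq.eq_of_lt_of_lt h4 (by omega) (by omega)
          omega
      obtain ⟨c, hc⟩ : ∃ c : ℕ → V, ∀ i, c i = Y (i₀ + (2 * k - 1 - i)) := ⟨_, fun i => rfl⟩
      have hc0 : c (2 * k - 1) = Y i₀ := by
        rw [hc, Nat.sub_self, Nat.add_zero]
      refine ⟨((i₀ + (2 * k - 1)) % (2 * k), false, (c (2 * k - 1), c (2 * k - 2),
        (List.range (2 * k - 2)).map c)), ?_, ?_⟩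
      · rw [mem_product, mem_product]
        refine ⟨mem_range.2 (Nat.mod_lt _ hn), mem_univ _, ?_⟩
        refine mem_Cyc hk c ?_ ?_ ?_ ?_ ?_
        · intro i hi
          rw [hc, hc]
          have := (hYa (i₀ + (2 * k - 1 - (i + 1)))).symm
          rwa [show (i₀ : ℕ) + (2 * k - 1 - (i + 1)) + 1 = i₀ + (2 * k - 1 - i) by omega] at this
        · rw [hc0, hc]
          have := (hYa (i₀ + (2 * k - 1 - 0))).symm
          rw [show (i₀ : ℕ) + (2 * k - 1 - 0) + 1 = i₀ + 2 * k by omega,
            hYm (i₀ + 2 * k) i₀ (Nat.add_mod_right _ _)] at this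
          exact this
        · intro i i' h1 h2 h
          rw [hc, hc] at h
          have h3 := hYi _ _ h
          have h4 : (2 * k - 1 - i : ℕ) ≡ 2 * k - 1 - i' [MOD 2 * k] :=
            Nat.ModEq.add_left_cancel' _ h3
          have := Nat.ModEq.eq_of_lt_of_lt h4 (by omega) (by omega)
          omega
        · intro i hi
          rw [hc0, hc]
          apply hlt
          intro h
          have h3 : (i₀ + (2 * k - 1 - i) : ℕ) % (2 * k) = (i₀ + 0) % (2 * k) := by
            rw [h, Nat.add_zero, Nat.mod_eq_of_lt hi₀]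
          have h4 : (2 * k - 1 - i : ℕ) ≡ 0 [MOD 2 * k] := Nat.ModEq.add_left_cancel' _ h3
          have := Nat.ModEq.eq_of_lt_of_lt h4 (by omega) (by omega)
          omega
        · rw [hc, hc]
          rw [show (i₀ : ℕ) + (2 * k - 1 - (2 * k - 2)) = i₀ + 1 by omega, Nat.sub_zero]
          exact hor'
      · funext i
        have hi := i.2
        simp only [fn, if_false, Bool.false_eq_true]
        rw [dec_map hk c _ (Nat.mod_lt _ hn), hc, ← hYy i]
        apply hYm
        rw [Nat.mod_add_mod]
        set t := (i₀ + (2 * k - 1) + (2 * k - i) : ℕ) with ht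
        have h0 := Nat.mod_lt t hn
        have h1 := Nat.div_add_mod t (2 * k)
        -- i₀ + (2k - 1 - t % 2k) ≡ i
        have h2 : (i₀ + (2 * k - 1 - t % (2 * k)) : ℕ) + t ≡ i + t [MOD 2 * k] := by
          have e1 : (i₀ + (2 * k - 1 - t % (2 * k)) : ℕ) + t =
              i₀ + (2 * k - 1) + 2 * k * (t / (2 * k)) := by omega
          have e2 : (i : ℕ) + t = i₀ + (2 * k - 1) + 2 * k * 1 := by omega
          rw [e1, e2]
          unfold Nat.ModEq
          rw [Nat.add_mul_mod_self_left, Nat.add_mul_mod_self_left]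
        exact Nat.ModEq.add_right_cancel' _ h2
  calc A.card ≤ _ := card_le_card hsub
    _ ≤ ((range (2 * k)) ×ˢ ((univ : Finset Bool) ×ˢ Cyc H o k)).card := card_image_le
    _ = 4 * k * (Cyc H o k).card := by
        rw [card_product, card_product, card_range, card_univ, Fintype.card_bool]
        ring

end Vale.Agent.P050.Opt
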