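import Vale.Agent.P050.O.H261.DomB

set_option linter.all false

/-!
Dense targets, graphs built by gluing: a law for the graphs with a vertex adjacent to the whole
opposite part (second copy of the module).
-/

open MeasureTheory Finset

namespace Vale.Agent.P050.Opt

open Vale.Agent.P050 Vale.Agent.P050.Dense

section

variable {V : Type} [Fintype V] [DecidableEq V] {Ω : Type} [Fintype Ω] [DecidableEq Ω]

/-- the data of a graph with a vertex `a` adjacent to the whole opposite part -/
structure H261.Data (N : V → Finset V) (C : Finset V) (a : V) : Prop where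
  aC : a ∉ C
  aN : a ∉ N a
  sub : ∀ u ∈ C, N u ⊆ N a
  disj : ∀ u ∈ C, u ∉ N a
  cov : ∀ v, v ≠ a → v ∉ C → v ∈ N a

namespace H261

variable {N : V → Finset V} {C : Finset V} {a : V} {w : Ω → ℝ} {U : Sym2 Ω → ℝ}

/-- the star at `a` -/
def A (U : Sym2 Ω → ℝ) (N : V → Finset V) (a : V) (z : V → Ω) : ℝ :=
  ∏ b ∈ N a, (1 + U s(z a, z b))

/-- the conditional laws -/
noncomputable def Q (w : Ω → ℝ) (U : Sym2 Ω → ℝ) (N : V → Finset V) (C : Finset V) (z : V → Ω) : ℝ :=
  ∏ u ∈ C, ((∏ b ∈ N u, (1 + U s(z u, z b))) / P w U (N u) z)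

lemma A_zero (hw : Wt w U) (hd : Data N C a) {u : V} (hu : u ∈ C) {z : V → Ω}
    (h : P w U (N u) z = 0) : A U N a z = 0 := by
  have h1 := P_zero hw h (z a)
  obtain ⟨b, hb, hb0⟩ := prod_eq_zero_iff.1 h1
  exact prod_eq_zero (hd.sub u hu hb) hb0

lemma ind_A {v : V} (hva : v ≠ a) (hv : v ∉ N a) : Ind v (fun z : V → Ω => A U N a z) :=
  Ind.prod _ fun b hb => ind_factor hva.symm fun e => hv (e ▸ hb)

/-- functions which do not depend on the vertices in `C` -/
lemma ex_outer (hw : Wt w U) (hd : Data N C a) {Φ : (V → Ω) → ℝ}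
    (hΦ : ∀ u ∈ C, Ind u Φ) :
    Ex w (fun z => (Φ z * A U N a z) * Q w U N C z) = Ex w (fun z => Φ z * A U N a z) := by
  refine ex_cond hw N C (fun u hu b hb hbC => hd.disj b hbC (hd.sub u hu hb)) (fun u hu => ?_)
    fun u hu z hz => ?_
  · exact (hΦ u hu).mul (ind_A (fun e => hd.aC (e ▸ hu)) (hd.disj u hu))
  · show Φ z * A U N a z = 0
    rw [A_zero hw hd hu hz, mul_zero]

/-- functions of the neighbours of one vertex in `C` -/
lemma ex_nbr (hw : Wt w U) (hd : Data N C a) {u : V} (hu : u ∈ C) {Φ : (V → Ω) → ℝ}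
    (h1 : ∀ b ∈ N a, b ∉ N u → Ind b Φ) (h2 : Ind a Φ) :
    Ex w (fun z => Φ z * A U N a z) = Ex w (fun z => Φ z * P w U (N u) z) := by
  have h3 := ex_split (w := w) (U := U) hw a (hd.sub u hu) hd.aN (Φ := Φ) h1
  have h4 := ex_centre hw a (N u) (fun e => hd.aN (hd.sub u hu e)) h2
  exact h3.trans h4

/-- the marginal at one vertex -/
lemma ex_marg (hw : Wt w U) (hd : Data N C a) (v : V) (f : Ω → ℝ) :
    Ex w (fun z => (f (z v) * A U N a z) * Q w U N C z) = ∑ s, w s * f s := by
  have hindf : ∀ x, x ≠ v → Ind x (fun z : V → Ω => f (z v)) := by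
    intro x hx z y
    simp only [Function.update_of_ne hx.symm]
  by_cases hvC : v ∈ C
  · have hva : v ≠ a := fun e => hd.aC (e ▸ hvC)
    have hvN : v ∉ N v := fun e => hd.disj v hvC (hd.sub v hvC e)
    have haN : a ∉ N v := fun e => hd.aN (hd.sub v hvC e)
    set Φ : (V → Ω) → ℝ := fun z => f (z v) *
      ((∏ b ∈ N v, (1 + U s(z v, z b))) / P w U (N v) z) with hΦ
    have hindΦ : ∀ x, x ≠ v → x ∉ N v → Ind x Φ := by
      intro x hx hxN
      refine (hindf x hx).mul (Ind.div (Ind.prod _ fun b hb => ?_) (ind_P hxN))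
      exact ind_factor hx.symm fun e => hxN (e ▸ hb)
    have e1 : ∀ z : V → Ω, (f (z v) * A U N a z) * Q w U N C z =
        (Φ z * A U N a z) * Q w U N (C.erase v) z := by
      intro z
      unfold Q
      rw [← mul_prod_erase C _ hvC]
      simp only [hΦ]
      ring
    have hd' : ∀ x ∈ C.erase v, x ∈ C := fun x hx => mem_of_mem_erase hx
    have e2 : Ex w (fun z => (Φ z * A U N a z) * Q w U N (C.erase v) z) =
        Ex w (fun z => Φ z * A U N a z) := by
      refine ex_cond hw N (C.erase v)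
        (fun u hu b hb hbC => hd.disj b (hd' b hbC) (hd.sub u (hd' u hu) hb)) (fun u hu => ?_)
        fun u hu z hz => ?_
      · refine (hindΦ u (ne_of_mem_erase hu) fun e => ?_).mul
          (ind_A (fun e => hd.aC (e ▸ hd' u hu)) (hd.disj u (hd' u hu)))
        exact hd.disj u (hd' u hu) (hd.sub v hvC e)
      · show Φ z * A U N a z = 0
        rw [A_zero hw hd (hd' u hu) hz, mul_zero]
    have e3 : Ex w (fun z => Φ z * A U N a z) = Ex w (fun z => Φ z * P w U (N v) z) :=
      ex_nbr hw hd hvC (fun b hb hb2 => hindΦ b (fun e => hd.disj v hvC (e ▸ hb)) hb2)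
        (hindΦ a hva.symm haN)
    have e4 : ∀ z : V → Ω, Φ z * P w U (N v) z =
        f (z v) * ∏ b ∈ N v, (1 + U s(z v, z b)) := by
      intro z
      simp only [hΦ]
      by_cases hP : P w U (N v) z = 0
      · rw [hP, P_zero hw hP (z v)]
        ring
      · field_simp
    have e5 : Ex w (fun z : V → Ω => f (z v) * ∏ b ∈ N v, (1 + U s(z v, z b))) =
        Ex w (fun z : V → Ω => f (z v)) :=
      ex_leaves hw v (N v) hvN fun x hx => hindf x fun e => hvN (e ▸ hx)
    simp_rw [e1]
    rw [e2, e3]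
    simp_rw [e4]
    rw [e5, ex_single hw.sum]
  · rw [ex_outer hw hd fun u hu => hindf u fun e => hvC (e ▸ hu)]
    by_cases hva : v = a
    · have e1 : Ex w (fun z : V → Ω => f (z v) * A U N a z) =
          Ex w (fun z : V → Ω => f (z v)) :=
        ex_leaves hw a (N a) hd.aN fun x hx => hindf x fun e => by
          rw [e, hva] at hx
          exact hd.aN hx
      rw [e1, ex_single hw.sum]
    · have hv : v ∈ N a := hd.cov v hva hvC
      have e1 : Ex w (fun z : V → Ω => f (z v) * A U N a z) =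
          Ex w (fun z : V → Ω => f (z v) * ∏ b ∈ {v}, (1 + U s(z a, z b))) :=
        ex_split hw a (singleton_subset_iff.2 hv) hd.aN fun b _ hb2 =>
          hindf b fun e => hb2 (mem_singleton.2 e)
      have e2 : ∀ z : V → Ω, f (z v) * ∏ b ∈ {v}, (1 + U s(z a, z b)) =
          f (z v) * ∏ b ∈ {a}, (1 + U s(z v, z b)) := by
        intro z
        rw [prod_singleton, prod_singleton, Sym2.eq_swap]
      rw [e1]
      simp_rw [e2]
      have e3 : Ex w (fun z : V → Ω => f (z v) * ∏ b ∈ {a}, (1 + U s(z v, z b))) =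
          Ex w (fun z : V → Ω => f (z v)) :=
        ex_leaves hw v {a} (fun e => hva (mem_singleton.1 e)) fun x hx =>
          hindf x fun e => hva (e ▸ mem_singleton.1 hx)
      rw [e3, ex_single hw.sum]

/-- the relative entropy of one conditional law -/
lemma ex_log (hw : Wt w U) (hd : Data N C a) {u : V} (hu : u ∈ C) :
    0 ≤ Ex w (fun z => (Real.log (P w U (N u) z) * A U N a z) * Q w U N C z) := by
  have hind : ∀ x, x ∉ N u → Ind x (fun z : V → Ω => Real.log (P w U (N u) z)) := by
    intro x hx z y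
    simp only [ind_P hx z y]
  have haN : a ∉ N u := fun e => hd.aN (hd.sub u hu e)
  rw [ex_outer hw hd fun x hx => hind x fun e => hd.disj x hx (hd.sub u hu e),
    ex_nbr hw hd hu (fun b _ hb => hind b hb) (hind a haN)]
  have h1 : Ex w (fun z : V → Ω => 1 * ∏ b ∈ N u, (1 + U s(z a, z b))) =
      Ex w (fun z : V → Ω => 1 * P w U (N u) z) :=
    ex_centre hw a (N u) haN fun _ _ => rfl
  have h2 : Ex w (fun z : V → Ω => 1 * ∏ b ∈ N u, (1 + U s(z a, z b))) =
      Ex w (fun _ : V → Ω => (1:ℝ)) :=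
    ex_leaves hw a (N u) haN fun _ _ _ _ => rfl
  have h3 : Ex w (fun z : V → Ω => P w U (N u) z) = 1 := by
    have h4 := h1.symm.trans h2
    rw [ex_one hw.sum] at h4
    simpa only [one_mul] using h4
  have h5 : Ex w (fun z : V → Ω => P w U (N u) z - 1) = 0 := by
    have h6 : Ex w (fun z : V → Ω => P w U (N u) z - 1) =
        Ex w (fun z : V → Ω => P w U (N u) z) - Ex w (fun _ : V → Ω => (1:ℝ)) := by
      unfold Ex
      rw [← sum_sub_distrib]
      exact sum_congr rfl fun z _ => by ring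
    rw [h6, h3, ex_one hw.sum, sub_self]
  rw [← h5]
  unfold Ex
  refine sum_le_sum fun z _ => mul_le_mul_of_nonneg_left ?_
    (prod_nonneg fun v _ => (hw.pos _).le)
  show P w U (N u) z - 1 ≤ Real.log (P w U (N u) z) * P w U (N u) z
  rcases (P_nonneg hw (N u) z).eq_or_lt with h | h
  · rw [← h]
    norm_num
  · have h7 := mul_le_mul_of_nonneg_right (Real.one_sub_inv_le_log_of_pos h) h.le
    have h8 : (1 - (P w U (N u) z)⁻¹) * P w U (N u) z = P w U (N u) z - 1 := by
      field_simp
    linarith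

end H261

/-- E4 (second copy): a vertex adjacent to the whole opposite part -/
theorem H261.dom (H : SimpleGraph V) (a : V)
    (h : ∀ u v, H.Adj u v → (H.Adj a u ↔ ¬ H.Adj a v))
    {w : Ω → ℝ} {U : Sym2 Ω → ℝ} (hw : Wt w U) : Ent H w U := by
  classical
  set N : V → Finset V := fun u => univ.filter (fun b => H.Adj u b) with hN
  set C : Finset V := (univ.filter (fun u => ¬ H.Adj a u)).erase a with hC
  have hmN : ∀ u b, b ∈ N u ↔ H.Adj u b := fun u b => by simp [hN]
  have hmC : ∀ u, u ∈ C ↔ u ≠ a ∧ ¬ H.Adj a u := fun u => by simp [hC]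
  have hd : H261.Data N C a := by
    refine ⟨fun e => ((hmC a).1 e).1 rfl, fun e => H.loopless.irrefl a ((hmN a a).1 e), ?_, ?_, ?_⟩
    · intro u hu b hb
      rw [hmN] at hb ⊢
      by_contra h2
      exact ((hmC u).1 hu).2 ((h u b hb).2 h2)
    · intro u hu hu2
      exact ((hmC u).1 hu).2 ((hmN a u).1 hu2)
    · intro v hva hvC
      rw [hmN]
      by_contra h2
      exact hvC ((hmC v).2 ⟨hva, h2⟩)
  have hmH : ∀ z : V → Ω, mH H w U z = (∏ v, w (z v)) * (H261.A U N a z *
      ∏ u ∈ C, ∏ b ∈ N u, (1 + U s(z u, z b))) := by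
    intro z
    unfold mH H261.A
    congr 1
    have h1 := H261.prod_edges H a h (fun e => 1 + U (e.map z))
    have h2 : a ∈ univ.filter (fun u => ¬ H.Adj a u) := by simp
    have h3 := mul_prod_erase (univ.filter (fun u => ¬ H.Adj a u))
      (fun u => ∏ b ∈ N u, (1 + U s(z u, z b))) h2
    rw [← hC] at h3
    rw [h3]
    convert h1 using 1
    refine prod_congr rfl fun u _ => prod_congr rfl fun b _ => ?_
    rfl
  set R : (V → Ω) → ℝ := fun z => ∏ u ∈ C, H261.P w U (N u) z with hR
  have hg : ∀ z, mH H w U z / R z = (∏ v, w (z v)) * (H261.A U N a z * H261.Q w U N C z) := by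
    intro z
    rw [hmH]
    simp only [hR, H261.Q]
    rw [prod_div_distrib]
    ring
  have hmnn : ∀ z, 0 ≤ mH H w U z := fun z =>
    mul_nonneg (prod_nonneg fun v _ => (hw.pos _).le) (prod_nonneg fun e _ => hw.nn _)
  have hRnn : ∀ z, 0 ≤ R z := fun z => prod_nonneg fun u _ => H261.P_nonneg hw _ z
  have hEx : ∀ Φ : (V → Ω) → ℝ, ∑ z, mH H w U z / R z * Φ z =
      H261.Ex w (fun z => (Φ z * H261.A U N a z) * H261.Q w U N C z) := by
    intro Φ
    unfold H261.Ex
    refine sum_congr rfl fun z _ => ?_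
    rw [hg]
    ring
  refine ⟨fun z => mH H w U z / R z, fun z => div_nonneg (hmnn z) (hRnn z), ?_, ?_, ?_, ?_⟩
  · have h1 := hEx fun z => 1
    simp only [mul_one] at h1
    rw [h1, H261.ex_marg hw hd a (fun _ => 1)]
    simp [hw.sum]
  · intro v s
    have h1 := hEx fun z => if z v = s then 1 else 0
    rw [H261.ex_marg hw hd v (fun y => if y = s then 1 else 0)] at h1
    rw [sum_filter]
    simpa using h1
  · intro z hz
    simp only [hz, zero_div]
  · have h1 : ∀ z, mH H w U z / R z * Real.log (mH H w U z / R z / mH H w U z) =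
        -∑ u ∈ C, mH H w U z / R z * Real.log (H261.P w U (N u) z) := by
      intro z
      by_cases h0 : mH H w U z / R z = 0
      · simp [h0]
      · have hm0 : mH H w U z ≠ 0 := fun e => h0 (by rw [e, zero_div])
        have hR0 : R z ≠ 0 := fun e => h0 (by rw [e, div_zero])
        have h2 : mH H w U z / R z / mH H w U z = (R z)⁻¹ := by
          field_simp
        rw [h2, Real.log_inv, ← mul_sum, mul_neg]
        congr 2
        exact Real.log_prod fun u hu => (prod_ne_zero_iff.1 hR0) u hu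
    show ∑ z, mH H w U z / R z * Real.log (mH H w U z / R z / mH H w U z) ≤ 0
    rw [sum_congr rfl fun z _ => h1 z, sum_neg_distrib, sum_comm]
    refine neg_nonpos.2 (sum_nonneg fun u hu => ?_)
    rw [hEx fun z => Real.log (H261.P w U (N u) z)]
    exact H261.ex_log hw hd hu

end

end Vale.Agent.P050.Opt
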