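import Vale.Agent.P050.O.H300.EntDefs

set_option linter.all false

/-!
Dense targets, graphs built by gluing: summation over single coordinates in a finite product.
-/

open MeasureTheory Finset

namespace Vale.Agent.P050.Opt

open Vale.Agent.P050 Vale.Agent.P050.Dense

section

variable {V : Type} [Fintype V] [DecidableEq V] {Ω : Type} [Fintype Ω] [DecidableEq Ω]

/-- expectation for the product law -/
def H261.Ex (w : Ω → ℝ) (F : (V → Ω) → ℝ) : ℝ := ∑ z : V → Ω, (∏ v, w (z v)) * F z

/-- the function does not depend on the coordinate `v` -/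
def H261.Ind (v : V) (F : (V → Ω) → ℝ) : Prop := ∀ z y, F (Function.update z v y) = F z

/-- the weight of a star with summed centre -/
def H261.P (w : Ω → ℝ) (U : Sym2 Ω → ℝ) (S : Finset V) (z : V → Ω) : ℝ :=
  ∑ y, w y * ∏ b ∈ S, (1 + U s(y, z b))

lemma H261.ex_coord {w : Ω → ℝ} (hw : ∑ s, w s = 1) (v : V) (F : (V → Ω) → ℝ) :
    H261.Ex w F = H261.Ex w (fun z => ∑ y, w y * F (Function.update z v y)) := by
  have hprod : ∀ z : V → Ω, ∏ x, w (z x) = w (z v) * ∏ x ∈ univ.erase v, w (z x) :=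
    fun z => (mul_prod_erase univ (fun x => w (z x)) (mem_univ v)).symm
  have herase : ∀ (z : V → Ω) (y : Ω), ∏ x ∈ univ.erase v, w (Function.update z v y x) =
      ∏ x ∈ univ.erase v, w (z x) := fun z y =>
    prod_congr rfl fun x hx => by rw [Function.update_of_ne (ne_of_mem_erase hx)]
  let e : (V → Ω) × Ω ≃ (V → Ω) × Ω :=
    { toFun := fun p => (Function.update p.1 v p.2, p.1 v)
      invFun := fun p => (Function.update p.1 v p.2, p.1 v)
      left_inv := fun p => by simp
      right_inv := fun p => by simp }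
  unfold H261.Ex
  calc ∑ z : V → Ω, (∏ v, w (z v)) * F z
      = ∑ p : (V → Ω) × Ω, (∏ x, w (p.1 x)) * F p.1 * w p.2 := by
        rw [Fintype.sum_prod_type]
        refine sum_congr rfl fun z _ => ?_
        show (∏ v, w (z v)) * F z = ∑ y, (∏ x, w (z x)) * F z * w y
        rw [← mul_sum, hw, mul_one]
    _ = ∑ p : (V → Ω) × Ω, (∏ x, w ((e p).1 x)) * F (e p).1 * w (e p).2 :=
        (e.sum_comp (fun p : (V → Ω) × Ω => (∏ x, w (p.1 x)) * F p.1 * w p.2)).symm
    _ = ∑ p : (V → Ω) × Ω, (∏ x, w (p.1 x)) * (w p.2 * F (Function.update p.1 v p.2)) := by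
        refine sum_congr rfl fun p _ => ?_
        show (∏ x, w (Function.update p.1 v p.2 x)) * F (Function.update p.1 v p.2) * w (p.1 v) =
          _
        rw [hprod (Function.update p.1 v p.2), herase, Function.update_self, hprod p.1]
        ring
    _ = ∑ z : V → Ω, (∏ v, w (z v)) * ∑ y, w y * F (Function.update z v y) := by
        rw [Fintype.sum_prod_type]
        refine sum_congr rfl fun z _ => ?_
        rw [mul_sum]

/-- summing out one coordinate -/
lemma H261.ex_out {w : Ω → ℝ} (hw : ∑ s, w s = 1) (v : V) {G : (V → Ω) → ℝ}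
    (hG : H261.Ind v G) (h : Ω → (V → Ω) → ℝ) (hh : ∀ y, H261.Ind v (h y)) :
    H261.Ex w (fun z => G z * h (z v) z) = H261.Ex w (fun z => G z * ∑ y, w y * h y z) := by
  rw [H261.ex_coord hw v]
  unfold H261.Ex
  refine sum_congr rfl fun z _ => ?_
  congr 1
  show ∑ y, w y * (G (Function.update z v y) * h (Function.update z v y v)
    (Function.update z v y)) = G z * ∑ y, w y * h y z
  rw [mul_sum]
  refine sum_congr rfl fun y _ => ?_
  rw [hG, Function.update_self, hh]
  ring

lemma H261.ind_factor {U : Sym2 Ω → ℝ} {v x b : V} (hx : x ≠ v) (hb : b ≠ v) :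
    H261.Ind v (fun z : V → Ω => 1 + U s(z x, z b)) := by
  intro z y
  simp only [Function.update_of_ne hx, Function.update_of_ne hb]

lemma H261.Ind.mul {v : V} {F G : (V → Ω) → ℝ} (hF : H261.Ind v F) (hG : H261.Ind v G) :
    H261.Ind v (fun z => F z * G z) := by
  intro z y
  show F _ * G _ = F z * G z
  rw [hF, hG]

lemma H261.Ind.div {v : V} {F G : (V → Ω) → ℝ} (hF : H261.Ind v F) (hG : H261.Ind v G) :
    H261.Ind v (fun z => F z / G z) := by
  intro z y
  show F _ / G _ = F z / G z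
  rw [hF, hG]

lemma H261.Ind.prod {ι : Type*} {v : V} (S : Finset ι) {F : ι → (V → Ω) → ℝ}
    (hF : ∀ i ∈ S, H261.Ind v (F i)) : H261.Ind v (fun z => ∏ i ∈ S, F i z) := by
  intro z y
  exact prod_congr rfl fun i hi => hF i hi z y

lemma H261.ind_P {w : Ω → ℝ} {U : Sym2 Ω → ℝ} {v : V} {S : Finset V} (hv : v ∉ S) :
    H261.Ind v (H261.P (V := V) w U S) := by
  intro z y
  unfold H261.P
  refine sum_congr rfl fun t _ => ?_
  congr 1
  refine prod_congr rfl fun b hb => ?_
  have hbv : b ≠ v := fun e => hv (e ▸ hb)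
  rw [Function.update_of_ne hbv]

/-- leaves of a star are summed out -/
lemma H261.ex_leaves {w : Ω → ℝ} {U : Sym2 Ω → ℝ} (hw : Wt w U) (c : V) {Φ : (V → Ω) → ℝ}
    (T : Finset V) (hc : c ∉ T) (hΦ : ∀ v ∈ T, H261.Ind v Φ) :
    H261.Ex w (fun z => Φ z * ∏ b ∈ T, (1 + U s(z c, z b))) = H261.Ex w Φ := by
  induction T using Finset.induction_on with
  | empty => simp
  | insert b T hb ih =>
    have hcb : c ≠ b := fun e => hc (by rw [e]; exact mem_insert_self _ _)
    have hcT : c ∉ T := fun e => hc (mem_insert_of_mem e)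
    have h1 : ∀ z : V → Ω, Φ z * ∏ b ∈ insert b T, (1 + U s(z c, z b)) =
        (Φ z * ∏ b ∈ T, (1 + U s(z c, z b))) * (1 + U s(z c, z b)) := by
      intro z
      rw [prod_insert hb]
      ring
    simp_rw [h1]
    have hG : H261.Ind b (fun z : V → Ω => Φ z * ∏ b ∈ T, (1 + U s(z c, z b))) := by
      refine (hΦ b (mem_insert_self _ _)).mul (H261.Ind.prod T fun i hi => ?_)
      exact H261.ind_factor hcb fun e => hb (e ▸ hi)
    have h2 := H261.ex_out hw.sum b hG (fun y z => 1 + U s(z c, y)) (fun y z t => by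
      simp only [Function.update_of_ne hcb])
    refine h2.trans ?_
    have h3 : ∀ z : V → Ω, ∑ y, w y * (1 + U s(z c, y)) = 1 := by
      intro z
      have h4 : ∀ y, w y * (1 + U s(z c, y)) = w y + w y * U s(z c, y) := fun y => by ring
      simp_rw [h4]
      rw [sum_add_distrib, hw.sum, hw.marg, add_zero]
    simp_rw [h3, mul_one]
    exact ih hcT fun v hv => hΦ v (mem_insert_of_mem hv)

/-- the centre of a star is summed out -/
lemma H261.ex_centre {w : Ω → ℝ} {U : Sym2 Ω → ℝ} (hw : Wt w U) (c : V) {Φ : (V → Ω) → ℝ}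
    (S : Finset V) (hc : c ∉ S) (hΦ : H261.Ind c Φ) :
    H261.Ex w (fun z => Φ z * ∏ b ∈ S, (1 + U s(z c, z b))) =
      H261.Ex w (fun z => Φ z * H261.P w U S z) := by
  refine H261.ex_out hw.sum c hΦ (fun y z => ∏ b ∈ S, (1 + U s(y, z b))) fun y z t => ?_
  refine prod_congr rfl fun b hb => ?_
  have hbc : b ≠ c := fun e => hc (e ▸ hb)
  rw [Function.update_of_ne hbc]

/-- conditional laws are summed out -/
lemma H261.ex_cond {w : Ω → ℝ} {U : Sym2 Ω → ℝ} (hw : Wt w U) (N : V → Finset V)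
    {Ψ : (V → Ω) → ℝ} (C : Finset V) (hN : ∀ u ∈ C, ∀ b ∈ N u, b ∉ C)
    (hΨ : ∀ u ∈ C, H261.Ind u Ψ)
    (h0 : ∀ u ∈ C, ∀ z, H261.P w U (N u) z = 0 → Ψ z = 0) :
    H261.Ex w (fun z => Ψ z *
      ∏ u ∈ C, ((∏ b ∈ N u, (1 + U s(z u, z b))) / H261.P w U (N u) z)) = H261.Ex w Ψ := by
  induction C using Finset.induction_on with
  | empty => simp
  | insert u C hu ih =>
    have hm := mem_insert_self u C
    have h1 : ∀ z : V → Ω, Ψ z * ∏ u ∈ insert u C,
        ((∏ b ∈ N u, (1 + U s(z u, z b))) / H261.P w U (N u) z) =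
        (Ψ z * ∏ u ∈ C, ((∏ b ∈ N u, (1 + U s(z u, z b))) / H261.P w U (N u) z)) *
          ((∏ b ∈ N u, (1 + U s(z u, z b))) / H261.P w U (N u) z) := by
      intro z
      rw [prod_insert hu]
      ring
    simp_rw [h1]
    have hNu : ∀ b ∈ N u, b ≠ u := fun b hb e => hN u hm b hb (e ▸ hm)
    have hNu2 : u ∉ N u := fun e => hNu u e rfl
    have hG : H261.Ind u (fun z : V → Ω => Ψ z *
        ∏ u ∈ C, ((∏ b ∈ N u, (1 + U s(z u, z b))) / H261.P w U (N u) z)) := by
      refine (hΨ u hm).mul (H261.Ind.prod C fun i hi => ?_)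
      have hiu : i ≠ u := fun e => hu (e ▸ hi)
      have hb : ∀ b ∈ N i, b ≠ u := fun b hb e =>
        hN i (mem_insert_of_mem hi) b hb (e ▸ hm)
      refine (H261.Ind.prod (N i) fun b hbi => H261.ind_factor hiu (hb b hbi)).div ?_
      exact H261.ind_P fun e => hb u e rfl
    have h2 := H261.ex_out hw.sum u hG
      (fun y z => (∏ b ∈ N u, (1 + U s(y, z b))) / H261.P w U (N u) z) (fun y => by
        refine H261.Ind.div (fun z t => ?_) (H261.ind_P hNu2)
        refine prod_congr rfl fun b hb => ?_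
        rw [Function.update_of_ne (hNu b hb)])
    refine h2.trans ?_
    rw [← ih (fun v hv b hb e => hN v (mem_insert_of_mem hv) b hb (mem_insert_of_mem e))
      (fun v hv => hΨ v (mem_insert_of_mem hv)) (fun v hv => h0 v (mem_insert_of_mem hv))]
    unfold H261.Ex
    refine sum_congr rfl fun z _ => ?_
    congr 1
    show (Ψ z * ∏ u ∈ C, ((∏ b ∈ N u, (1 + U s(z u, z b))) / H261.P w U (N u) z)) *
      (∑ y, w y * ((∏ b ∈ N u, (1 + U s(y, z b))) / H261.P w U (N u) z)) =
      Ψ z * ∏ u ∈ C, ((∏ b ∈ N u, (1 + U s(z u, z b))) / H261.P w U (N u) z)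
    have h3 : ∑ y, w y * ((∏ b ∈ N u, (1 + U s(y, z b))) / H261.P w U (N u) z) =
        H261.P w U (N u) z / H261.P w U (N u) z := by
      have h4 : ∀ c : ℝ, ∑ y, w y * ((∏ b ∈ N u, (1 + U s(y, z b))) / c) =
          H261.P w U (N u) z / c := by
        intro c
        rw [H261.P, sum_div]
        exact sum_congr rfl fun y _ => (mul_div_assoc _ _ _).symm
      exact h4 _
    rw [h3]
    by_cases hP : H261.P w U (N u) z = 0
    · rw [h0 u hm z hP]
      ring
    · rw [div_self hP, mul_one]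

end

end Vale.Agent.P050.Opt
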