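import Vale.Agent.P050.O.H261.DomA

set_option linter.all false

/-!
Dense targets, graphs built by gluing: a law for the graphs with a vertex adjacent to the whole
opposite part (second copy of the module).
-/

open MeasureTheory Finset

namespace Vale.Agent.P050.Opt

open Vale.Agent.P050 Vale.Agent.P050.Dense

section

variable {V : Type} [Fintype V] [DecidableEq V] {Ω : Type} [Fintype Ω] [DecidableEq Ω]

lemma H261.ex_one {w : Ω → ℝ} (hw : ∑ s, w s = 1) : H261.Ex (V := V) w (fun _ => 1) = 1 := by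
  unfold H261.Ex
  have h := Finset.prod_univ_sum (fun _ : V => (univ : Finset Ω)) (fun _ s => w s)
  rw [Fintype.piFinset_univ] at h
  simp only [mul_one]
  rw [← h]
  simp [hw]

lemma H261.ex_const_mul {w : Ω → ℝ} (c : ℝ) (F : (V → Ω) → ℝ) :
    H261.Ex w (fun z => c * F z) = c * H261.Ex w F := by
  unfold H261.Ex
  rw [mul_sum]
  exact sum_congr rfl fun z _ => by ring

lemma H261.ex_single {w : Ω → ℝ} (hw : ∑ s, w s = 1) (v : V) (f : Ω → ℝ) :
    H261.Ex w (fun z : V → Ω => f (z v)) = ∑ s, w s * f s := by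
  have h := H261.ex_out hw v (G := fun _ => 1) (fun _ _ => rfl) (fun y _ => f y)
    (fun _ _ _ => rfl)
  simp only [one_mul] at h
  rw [h]
  have h2 := H261.ex_const_mul (V := V) (w := w) (∑ y, w y * f y) (fun _ => 1)
  simp only [mul_one] at h2
  rw [h2, H261.ex_one hw, mul_one]

lemma H261.P_nonneg {w : Ω → ℝ} {U : Sym2 Ω → ℝ} (hw : Wt w U) (S : Finset V) (z : V → Ω) :
    0 ≤ H261.P w U S z :=
  sum_nonneg fun y _ => mul_nonneg (hw.pos y).le (prod_nonneg fun b _ => hw.nn _)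

lemma H261.P_zero {w : Ω → ℝ} {U : Sym2 Ω → ℝ} (hw : Wt w U) {S : Finset V} {z : V → Ω}
    (h : H261.P w U S z = 0) (y : Ω) : ∏ b ∈ S, (1 + U s(y, z b)) = 0 := by
  unfold H261.P at h
  have h1 := (sum_eq_zero_iff_of_nonneg fun y _ =>
    mul_nonneg (hw.pos y).le (prod_nonneg fun b _ => hw.nn _)).1 h y (mem_univ y)
  exact (mul_eq_zero.1 h1).resolve_left (hw.pos y).ne'

lemma H261.ex_split {w : Ω → ℝ} {U : Sym2 Ω → ℝ} (hw : Wt w U) (a : V) {S T : Finset V}
    (hST : S ⊆ T) (haT : a ∉ T) {Φ : (V → Ω) → ℝ}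
    (hΦ : ∀ b ∈ T, b ∉ S → H261.Ind b Φ) :
    H261.Ex w (fun z => Φ z * ∏ b ∈ T, (1 + U s(z a, z b))) =
      H261.Ex w (fun z => Φ z * ∏ b ∈ S, (1 + U s(z a, z b))) := by
  have h1 : ∀ z : V → Ω, Φ z * ∏ b ∈ T, (1 + U s(z a, z b)) =
      (Φ z * ∏ b ∈ S, (1 + U s(z a, z b))) * ∏ b ∈ T \ S, (1 + U s(z a, z b)) := by
    intro z
    rw [← prod_sdiff hST]
    ring
  simp_rw [h1]
  refine H261.ex_leaves hw a (T \ S) (fun e => haT (mem_sdiff.1 e).1) fun v hv => ?_
  obtain ⟨hv1, hv2⟩ := mem_sdiff.1 hv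
  refine (hΦ v hv1 hv2).mul (H261.Ind.prod S fun i hi => ?_)
  exact H261.ind_factor (fun e => haT (e ▸ hv1)) fun e => hv2 (e ▸ hi)

open scoped Classical in
lemma H261.prod_edges (H : SimpleGraph V) (a : V)
    (h : ∀ u v, H.Adj u v → (H.Adj a u ↔ ¬ H.Adj a v)) (F : Sym2 V → ℝ) :
    ∏ e ∈ H.edgeFinset, F e = ∏ u ∈ univ.filter (fun u => ¬ H.Adj a u),
      ∏ b ∈ univ.filter (fun b => H.Adj u b), F s(u, b) := by
  rw [prod_sigma']
  symm
  refine prod_bij (fun p _ => s(p.1, p.2)) ?_ ?_ ?_ ?_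
  · rintro ⟨u, b⟩ hp
    simp only [mem_sigma, mem_filter, mem_univ, true_and] at hp
    simpa using hp.2
  · rintro ⟨u, b⟩ hp ⟨u', b'⟩ hp' he
    simp only [mem_sigma, mem_filter, mem_univ, true_and] at hp hp'
    rcases Sym2.eq_iff.1 he with ⟨h1, h2⟩ | ⟨h1, h2⟩
    · simp only at h1 h2
      subst h1 h2
      rfl
    · exfalso
      simp only at h1 h2
      subst h1 h2
      exact hp'.1 ((h _ _ hp'.2).2 hp.1)
  · intro e he
    induction e with
    | h x y =>
      have hxy : H.Adj x y := by simpa using he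
      by_cases hx : H.Adj a x
      · have hy : ¬ H.Adj a y := (h x y hxy).1 hx
        refine ⟨⟨y, x⟩, ?_, Sym2.eq_swap⟩
        simp only [mem_sigma, mem_filter, mem_univ, true_and]
        exact ⟨hy, hxy.symm⟩
      · refine ⟨⟨x, y⟩, ?_, rfl⟩
        simp only [mem_sigma, mem_filter, mem_univ, true_and]
        exact ⟨hx, hxy⟩
  · intro p _
    rfl

end

end Vale.Agent.P050.Opt
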