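import Vale.Agent.P050.O.H261.DomB
import Vale.Agent.P050.O.H300.AsmDefs

set_option linter.all false

/-!
Typical sequences: the law of large numbers for empirical laws on a finite set.
-/

open MeasureTheory Finset

namespace Vale.Agent.P050.Opt

open Vale.Agent.P050 Vale.Agent.P050.Dense

section

variable {Ω : Type} [Fintype Ω] [DecidableEq Ω]

/-- the centred indicator of the value `s` at the place `i` -/
def H261.dev {N : ℕ} (w : Ω → ℝ) (s : Ω) (i : Fin N) (x : Fin N → Ω) : ℝ :=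
  (if x i = s then 1 else 0) - w s

lemma H261.emp_sub {N : ℕ} (hN : 0 < N) (w : Ω → ℝ) (s : Ω) (x : Fin N → Ω) :
    emp x s - w s = (∑ i, H261.dev w s i x) / N := by
  have hN' : (N : ℝ) ≠ 0 := by positivity
  unfold emp H261.dev
  rw [sum_sub_distrib, sum_const, card_univ, Fintype.card_fin, nsmul_eq_mul, sum_boole]
  field_simp

lemma H261.ex_dev_mul {N : ℕ} {w : Ω → ℝ} (hw : ∑ s, w s = 1) (s : Ω) {i j : Fin N}
    (hij : i ≠ j) :
    H261.Ex w (fun x => H261.dev w s j x * H261.dev w s i x) = 0 := by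
  have h1 := H261.ex_out hw i (G := H261.dev w s j)
    (fun z y => by simp only [H261.dev, Function.update_of_ne hij.symm])
    (fun y _ => (if y = s then 1 else 0) - w s) (fun _ _ _ => rfl)
  refine h1.trans ?_
  have h2 : ∑ y, w y * ((if y = s then 1 else 0) - w s) = 0 := by
    have h3 : ∀ y, w y * ((if y = s then 1 else 0) - w s) =
        (if y = s then w y else 0) - w y * w s := by
      intro y
      split_ifs <;> ring
    simp_rw [h3]
    rw [sum_sub_distrib, sum_ite_eq' univ s, if_pos (mem_univ s), ← sum_mul, hw, one_mul,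
      sub_self]
  unfold H261.Ex
  refine sum_eq_zero fun x _ => ?_
  show _ * (H261.dev w s j x * ∑ y, w y * ((if y = s then 1 else 0) - w s)) = 0
  rw [h2]
  ring

lemma H261.le_one_of_sum {w : Ω → ℝ} (hw0 : ∀ s, 0 ≤ w s) (hw : ∑ s, w s = 1) (s : Ω) :
    w s ≤ 1 := by
  rw [← hw]
  exact single_le_sum (fun t _ => hw0 t) (mem_univ s)

lemma H261.ex_mono {V : Type} [Fintype V] [DecidableEq V] {w : Ω → ℝ} (hw0 : ∀ s, 0 ≤ w s)
    {F G : (V → Ω) → ℝ} (h : ∀ z, F z ≤ G z) : H261.Ex w F ≤ H261.Ex w G :=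
  sum_le_sum fun z _ => mul_le_mul_of_nonneg_left (h z) (prod_nonneg fun v _ => hw0 _)

/-- the variance of the empirical frequency -/
lemma H261.ex_sq {N : ℕ} (hN : 0 < N) {w : Ω → ℝ} (hw0 : ∀ s, 0 ≤ w s) (hw : ∑ s, w s = 1)
    (s : Ω) : H261.Ex w (fun x : Fin N → Ω => (emp x s - w s) ^ 2) ≤ 1 / N := by
  have hN' : (0:ℝ) < N := by exact_mod_cast hN
  have h1 : ∀ x : Fin N → Ω, (emp x s - w s) ^ 2 =
      ∑ i, ∑ j, (H261.dev w s j x * H261.dev w s i x) / (N:ℝ) ^ 2 := by
    intro x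
    rw [H261.emp_sub hN, div_pow, sq, sum_mul_sum, sum_div]
    refine sum_congr rfl fun i _ => ?_
    rw [sum_div]
    exact sum_congr rfl fun j _ => by ring
  have h2 : H261.Ex w (fun x : Fin N → Ω => (emp x s - w s) ^ 2) =
      ∑ i : Fin N, ∑ j : Fin N,
        H261.Ex w (fun x => H261.dev w s j x * H261.dev w s i x) / (N:ℝ) ^ 2 := by
    unfold H261.Ex
    simp_rw [h1, mul_sum, sum_div]
    rw [sum_comm]
    refine sum_congr rfl fun i _ => ?_
    rw [sum_comm]
    refine sum_congr rfl fun j _ => sum_congr rfl fun x _ => ?_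
    ring
  have h3 : ∀ i : Fin N, ∑ j : Fin N,
      H261.Ex w (fun x => H261.dev w s j x * H261.dev w s i x) / (N:ℝ) ^ 2 ≤
        1 / (N:ℝ) ^ 2 := by
    intro i
    rw [sum_eq_single i]
    · refine div_le_div_of_nonneg_right ?_ (by positivity)
      have h4 : H261.Ex w (fun x : Fin N → Ω => H261.dev w s i x * H261.dev w s i x) ≤
          H261.Ex w (fun _ : Fin N → Ω => (1:ℝ)) := by
        refine H261.ex_mono hw0 fun x => ?_
        have h5 := hw0 s
        have h6 := H261.le_one_of_sum hw0 hw s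
        unfold H261.dev
        split_ifs <;> nlinarith
      rwa [H261.ex_one hw] at h4
    · intro j _ hji
      rw [H261.ex_dev_mul hw s (Ne.symm hji), zero_div]
    · intro h
      exact absurd (mem_univ i) h
  rw [h2]
  refine (sum_le_sum fun i _ => h3 i).trans ?_
  rw [sum_const, card_univ, Fintype.card_fin, nsmul_eq_mul]
  refine le_of_eq ?_
  field_simp

open scoped Classical in
/-- most sequences are typical -/
theorem H261.typ_mass {w : Ω → ℝ} (hw0 : ∀ s, 0 ≤ w s) (hw : ∑ s, w s = 1) {δ : ℝ}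
    (hδ : 0 < δ) : ∀ᶠ N : ℕ in Filter.atTop, (3 / 4 : ℝ) ≤
      ∑ x : Fin N → Ω, if (∀ s, |emp x s - w s| ≤ δ) then ∏ i, w (x i) else 0 := by
  obtain ⟨N₀, hN₀⟩ := exists_nat_ge (4 * Fintype.card Ω / δ ^ 2)
  filter_upwards [Filter.eventually_ge_atTop (N₀ + 1)] with N hN
  have hNpos : 0 < N := by omega
  have hN' : (0:ℝ) < N := by exact_mod_cast hNpos
  have hNge : 4 * Fintype.card Ω / δ ^ 2 ≤ (N:ℝ) := by
    refine hN₀.trans ?_
    have : N₀ ≤ N := by omega
    exact_mod_cast this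
  have h1 : H261.Ex w (fun x : Fin N → Ω => 1 - ∑ s, (emp x s - w s) ^ 2 / δ ^ 2) ≤
      ∑ x : Fin N → Ω, if (∀ s, |emp x s - w s| ≤ δ) then ∏ i, w (x i) else 0 := by
    unfold H261.Ex
    refine sum_le_sum fun x _ => ?_
    have hp : 0 ≤ ∏ v, w (x v) := prod_nonneg fun v _ => hw0 _
    have hnn : ∀ s ∈ (univ : Finset Ω), 0 ≤ (emp x s - w s) ^ 2 / δ ^ 2 := fun s _ => by
      positivity
    split_ifs with h
    · have h2 := sum_nonneg hnn
      nlinarith
    · have h2 : ∃ s, ¬ |emp x s - w s| ≤ δ := by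
        by_contra hcon
        exact h fun s => by_contra fun hs => hcon ⟨s, hs⟩
      obtain ⟨s, hs⟩ := h2
      have h3 : 1 ≤ (emp x s - w s) ^ 2 / δ ^ 2 := by
        rw [le_div_iff₀ (by positivity), one_mul, ← sq_abs (emp x s - w s)]
        exact pow_le_pow_left₀ hδ.le (not_le.1 hs).le 2
      have h4 := single_le_sum hnn (mem_univ s)
      have h5 : 1 - ∑ s, (emp x s - w s) ^ 2 / δ ^ 2 ≤ 0 := by linarith
      exact mul_nonpos_of_nonneg_of_nonpos hp h5
  refine le_trans ?_ h1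
  have h2 : H261.Ex w (fun x : Fin N → Ω => 1 - ∑ s, (emp x s - w s) ^ 2 / δ ^ 2) =
      1 - ∑ s, H261.Ex w (fun x : Fin N → Ω => (emp x s - w s) ^ 2) / δ ^ 2 := by
    have h3 := H261.ex_one (V := Fin N) hw
    unfold H261.Ex at h3 ⊢
    simp_rw [mul_sub, mul_sum, sum_div]
    rw [sum_sub_distrib, h3, sum_comm]
    congr 1
    refine sum_congr rfl fun s _ => sum_congr rfl fun x _ => ?_
    ring
  rw [h2]
  have h3 : ∑ s, H261.Ex w (fun x : Fin N → Ω => (emp x s - w s) ^ 2) / δ ^ 2 ≤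
      ∑ s : Ω, (1 / N) / δ ^ 2 :=
    sum_le_sum fun s _ => div_le_div_of_nonneg_right (H261.ex_sq hNpos hw0 hw s) (by positivity)
  rw [sum_const, card_univ, nsmul_eq_mul] at h3
  have h4 : (Fintype.card Ω : ℝ) * (1 / N / δ ^ 2) ≤ 1 / 4 := by
    have h5 : (Fintype.card Ω : ℝ) * (1 / N / δ ^ 2) = (4 * Fintype.card Ω / δ ^ 2) / N / 4 := by
      field_simp
    rw [h5]
    have h6 : (4 * Fintype.card Ω / δ ^ 2) / N ≤ 1 := by
      rw [div_le_iff₀ hN', one_mul]
      exact hNge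
    linarith
  linarith

end

end Vale.Agent.P050.Opt
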