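import Vale.Agent.P050.O.H300.StarDefs
import Vale.Agent.P050.O.H234.Red3

set_option linter.all false

/-!
Dense targets, graphs glued at single vertices: the inequality for kernels with good rows, from
the weighted inequality for all vertex weights.
-/

open MeasureTheory Finset

namespace Vale.Agent.P050.Opt

open Vale.Agent.P050 Vale.Agent.P050.Dense

section

variable {V : Type*} [Fintype V] [DecidableEq V] {Ω : Type*} [MeasurableSpace Ω]
  [Fintype Ω] [MeasurableSingletonClass Ω]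

/-- Jensen for the one-body function -/
lemma H261.int_log_nonneg (μ : Measure Ω) [IsProbabilityMeasure μ] {r : Ω → ℝ}
    (hr : ∀ s, 0 < r s) (h : ∫ s, (r s)⁻¹ ∂μ = 1) : 0 ≤ ∫ s, Real.log (r s) ∂μ := by
  have h1 : ∀ s, 1 - (r s)⁻¹ ≤ Real.log (r s) := fun s => Real.one_sub_inv_le_log_of_pos (hr s)
  have h2 : ∫ s, (1 - (r s)⁻¹) ∂μ ≤ ∫ s, Real.log (r s) ∂μ :=
    integral_mono Integrable.of_finite Integrable.of_finite h1
  rw [integral_sub Integrable.of_finite Integrable.of_finite, h] at h2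
  simpa using h2

/-- the weighted inequality for the powers of the one-body function -/
lemma H261.one_le_of_star {H : SimpleGraph V} [DecidableRel H.Adj] {μ : Measure Ω}
    [IsProbabilityMeasure μ] {U : Sym2 Ω → ℝ} (hS : Star H μ U) {r : Ω → ℝ}
    (hr : ∀ s, 0 < r s) (h : ∫ s, (r s)⁻¹ ∂μ = 1) (a : V → ℕ) :
    1 ≤ ∫ z, (∏ v, r (z v) ^ a v) * ∏ e ∈ H.edgeFinset, (1 + U (e.map z)) ∂(piM V μ) := by
  have h0 := H261.int_log_nonneg μ hr h
  obtain ⟨h1, h2⟩ := hS (fun v s => r s ^ a v) (fun v s => pow_pos (hr s) _)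
  have h3 : 0 ≤ ∑ v : V, ∫ s, Real.log (r s ^ a v) ∂μ := by
    refine sum_nonneg fun v _ => ?_
    simp_rw [Real.log_pow]
    rw [integral_const_mul]
    positivity
  have h4 := (Real.log_nonneg_iff h1).1 (h3.trans h2)
  refine h4.trans (le_of_eq ?_)
  unfold Zk
  congr 1
  ext z
  congr 1
  refine prod_congr ?_ fun _ _ => rfl
  ext e
  simp only [SimpleGraph.mem_edgeFinset]

end

/-- kernels with good rows, from the weighted inequality for all vertex weights -/
theorem rows_of_star {V X : Type} [Fintype V] [DecidableEq V] [Fintype X] [DecidableEq X]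
    [Nonempty X] (H : SimpleGraph V) [DecidableRel H.Adj] {D : ℕ} (hD1 : 1 ≤ D) {θ : ℝ}
    (hθ0 : 0 < θ) (hθ : 10 ^ 13 * (D:ℝ) * θ ≤ 1)
    (W : X → X → ℝ) (hs : ∀ x y, W x y = W y x) (h0 : ∀ x y, 0 ≤ W x y)
    (h1 : ∀ x y, W x y ≤ 1) (hmin : ∀ x, (1 - θ) * Fintype.card X ≤ ∑ y, W x y)
    (hS : ∀ (m : MeasurableSpace X) [MeasurableSingletonClass X] (μ : Measure X)
      [IsProbabilityMeasure μ] (U : Sym2 X → ℝ) (κ η : ℝ), Ker μ U κ η → (1 + η) ^ D ≤ 2 →
      10 ^ 12 * (D:ℝ) * κ ≤ 1 → Star H μ U) :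
    pden W ^ H.edgeFinset.card ≤ tden H W hs := by
  have hDpos : (1:ℝ) ≤ D := by exact_mod_cast hD1
  have hθD : (D:ℝ) * θ ≤ 1 / 10 ^ 13 := by
    rw [le_div_iff₀ (by norm_num)]
    linarith
  have hθ1 : θ ≤ 1 / 10 ^ 13 := by nlinarith
  have hθ2 : θ ≤ 1 / 100 := by norm_num at hθ1 ⊢; linarith
  letI m : MeasurableSpace X := ⊤
  haveI : MeasurableSingletonClass X := ⟨fun _ => trivial⟩
  obtain ⟨μ, U, r, hμ, hU, hr, hr2, hr1, ht⟩ :=
    Vale.Agent.P050.R2.H111.Red3.red3_aux W hs h0 h1 H hθ0 hθ2 hmin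
  have hη : (1 + 3 * θ) ^ D ≤ 2 := by
    calc (1 + 3 * θ) ^ D ≤ (Real.exp (3 * θ)) ^ D := by
          apply pow_le_pow_left₀ (by positivity)
          linarith [Real.add_one_le_exp (3 * θ)]
      _ = Real.exp (D * (3 * θ)) := by rw [← Real.exp_nat_mul]
      _ ≤ Real.exp (1 / 2) := Real.exp_le_exp.2 (by norm_num at hθD ⊢; linarith)
      _ ≤ 2 := by
          have h3 : Real.exp (1 / 2) ^ 2 ≤ 2 ^ 2 := by
            rw [← Real.exp_nat_mul]
            norm_num
            linarith [Real.exp_one_lt_d9]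
          exact le_of_sq_le_sq h3 (by norm_num)
  have hκ : 10 ^ 12 * (D:ℝ) * (5 * θ) ≤ 1 := by linarith
  have hrpos : ∀ s, 0 < r s := by
    intro s
    have h3 := (abs_le.1 (hr2 s)).1
    linarith
  have h2 := H261.one_le_of_star (hS m μ U _ _ hU hη hκ) hrpos hr1 fun v => H.degree v - 1
  have hp0 : 0 ≤ pden W := by
    unfold pden
    exact div_nonneg (Finset.sum_nonneg fun x _ => Finset.sum_nonneg fun y _ => h0 x y)
      (by positivity)
  rw [ht]
  calc pden W ^ H.edgeFinset.card = pden W ^ H.edgeFinset.card * 1 := (mul_one _).symm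
    _ ≤ _ := mul_le_mul_of_nonneg_left h2 (pow_nonneg hp0 _)

end Vale.Agent.P050.Opt
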