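import Vale.Agent.P050.O.H261.RowsEnt
import Vale.Agent.P050.O.H625.BuiltFin

set_option linter.all false

/-!
Dense targets, graphs built by gluing: the inequality for kernels with good rows.
-/

open MeasureTheory Finset

namespace Vale.Agent.P050.Opt

open Vale.Agent.P050 Vale.Agent.P050.Dense

/-- E8: kernels with good rows -/
theorem rows_built {V X : Type} [Fintype V] [DecidableEq V] [Fintype X] [DecidableEq X]
    [Nonempty X] (H : SimpleGraph V) [DecidableRel H.Adj] {D : ℕ}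
    (hD1 : 1 ≤ D) (hG : Built D V H) {θ : ℝ} (hθ0 : 0 < θ)
    (hθ : 10 ^ 13 * (D:ℝ) * θ ≤ 1)
    (W : X → X → ℝ) (hs : ∀ x y, W x y = W y x) (h0 : ∀ x y, 0 ≤ W x y)
    (h1 : ∀ x y, W x y ≤ 1) (hmin : ∀ x, (1 - θ) * Fintype.card X ≤ ∑ y, W x y) :
    pden W ^ H.edgeFinset.card ≤ tden H W hs :=
  rows_of_ent H hD1 hθ0 hθ W hs h0 h1 hmin
    (fun _ _ μ _ _ _ _ hμ hU => wt_of_ker μ hμ hU)
    (fun _ _ μ _ _ _ _ hμ hU hη hκ => ent_built hG μ hμ hU hη hκ)

end Vale.Agent.P050.Opt
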