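import Vale.Agent.P050.O.H261.EntLog
import Vale.Agent.P050.O.H234.RedEq

set_option linter.all false

/-!
Dense targets, graphs built by gluing: the inequality for kernels with good rows, from the
existence of a law with given marginals and nonpositive relative entropy.
-/

open MeasureTheory Finset

namespace Vale.Agent.P050.Opt

open Vale.Agent.P050 Vale.Agent.P050.Dense

section

variable {V : Type} [Fintype V] [DecidableEq V] {Ω : Type} [Fintype Ω] [DecidableEq Ω]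

/-- Jensen for the one-body function -/
lemma H261.sum_log_nonneg {w r : Ω → ℝ} (hw : ∀ s, 0 ≤ w s) (hw1 : ∑ s, w s = 1)
    (hr : ∀ s, 0 < r s) (h : ∑ s, w s * (r s)⁻¹ = 1) : 0 ≤ ∑ s, w s * Real.log (r s) := by
  have h1 : ∑ s, (w s - w s * (r s)⁻¹) ≤ ∑ s, w s * Real.log (r s) := by
    refine sum_le_sum fun s _ => ?_
    have h2 := mul_le_mul_of_nonneg_left (Real.one_sub_inv_le_log_of_pos (hr s)) (hw s)
    linarith
  rw [sum_sub_distrib, hw1, h] at h1
  linarith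

/-- the weighted sum for the powers of the one-body function -/
lemma H261.one_le_of_ent {H : SimpleGraph V} [DecidableRel H.Adj] {w : Ω → ℝ}
    {U : Sym2 Ω → ℝ} (hw : Wt w U) (hE : Ent H w U) {r : Ω → ℝ}
    (hr : ∀ s, 0 < r s) (h : ∑ s, w s * (r s)⁻¹ = 1) (a : V → ℕ) :
    1 ≤ ∑ z : V → Ω, (∏ v, w (z v)) *
      ((∏ v, r (z v) ^ a v) * ∏ e ∈ H.edgeFinset, (1 + U (e.map z))) := by
  have h0 := H261.sum_log_nonneg (fun s => (hw.pos s).le) hw.sum hr h
  obtain ⟨h1, h2⟩ := ent_log hw hE (fun v s => r s ^ a v) (fun v s => pow_pos (hr s) _)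
  have h3 : 0 ≤ ∑ v : V, ∑ s, w s * Real.log (r s ^ a v) := by
    refine sum_nonneg fun v _ => ?_
    have h4 : ∑ s, w s * Real.log (r s ^ a v) = a v * ∑ s, w s * Real.log (r s) := by
      rw [mul_sum]
      refine sum_congr rfl fun s _ => ?_
      rw [Real.log_pow]
      ring
    rw [h4]
    positivity
  have h4 := (Real.log_nonneg_iff h1).1 (h3.trans h2)
  refine h4.trans (le_of_eq (sum_congr rfl fun z _ => ?_))
  unfold mH
  rw [mul_assoc]
  congr 1
  rw [mul_comm]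
  congr 1
  refine prod_congr ?_ fun _ _ => rfl
  ext e
  simp only [SimpleGraph.mem_edgeFinset]

end

/-- kernels with good rows, from the laws of `Ent` -/
theorem rows_of_ent {V X : Type} [Fintype V] [DecidableEq V] [Fintype X] [DecidableEq X]
    [Nonempty X] (H : SimpleGraph V) [DecidableRel H.Adj] {D : ℕ} (hD1 : 1 ≤ D) {θ : ℝ}
    (hθ0 : 0 < θ) (hθ : 10 ^ 13 * (D:ℝ) * θ ≤ 1)
    (W : X → X → ℝ) (hs : ∀ x y, W x y = W y x) (h0 : ∀ x y, 0 ≤ W x y)
    (h1 : ∀ x y, W x y ≤ 1) (hmin : ∀ x, (1 - θ) * Fintype.card X ≤ ∑ y, W x y)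
    (hwt : ∀ (m : MeasurableSpace X) (_ : MeasurableSingletonClass X) (μ : Measure X)
      [IsProbabilityMeasure μ] (U : Sym2 X → ℝ) (κ η : ℝ), (∀ s, 0 < μ.real {s}) →
      Ker μ U κ η → Wt (fun s => μ.real {s}) U)
    (hE : ∀ (m : MeasurableSpace X) (_ : MeasurableSingletonClass X) (μ : Measure X)
      [IsProbabilityMeasure μ] (U : Sym2 X → ℝ) (κ η : ℝ), (∀ s, 0 < μ.real {s}) →
      Ker μ U κ η → (1 + η) ^ D ≤ 2 → 10 ^ 12 * (D:ℝ) * κ ≤ 1 →
      Ent H (fun s => μ.real {s}) U) :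
    pden W ^ H.edgeFinset.card ≤ tden H W hs := by
  have hDpos : (1:ℝ) ≤ D := by exact_mod_cast hD1
  have hθD : (D:ℝ) * θ ≤ 1 / 10 ^ 13 := by
    rw [le_div_iff₀ (by norm_num)]
    linarith
  have hθ1 : θ ≤ 1 / 10 ^ 13 := by nlinarith
  have hθ2 : θ ≤ 1 / 100 := by norm_num at hθ1 ⊢; linarith
  letI m : MeasurableSpace X := ⊤
  haveI hm : MeasurableSingletonClass X := ⟨fun _ => trivial⟩
  obtain ⟨μ, U, r, hμ, hU, hr, hr2, hr1, ht, hat, -⟩ :=
    Vale.Agent.P050.R2.H111.Red3.redEq_aux W hs h0 h1 H hθ0 hθ2 hmin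
  have hat2 : ∀ s, 0 < μ.real {s} := fun s => ENNReal.toReal_pos (hat s) (measure_ne_top μ _)
  have hη : (1 + 3 * θ) ^ D ≤ 2 := by
    calc (1 + 3 * θ) ^ D ≤ (Real.exp (3 * θ)) ^ D := by
          apply pow_le_pow_left₀ (by positivity)
          linarith [Real.add_one_le_exp (3 * θ)]
      _ = Real.exp (D * (3 * θ)) := by rw [← Real.exp_nat_mul]
      _ ≤ Real.exp (1 / 2) := Real.exp_le_exp.2 (by norm_num at hθD ⊢; linarith)
      _ ≤ 2 := by
          have h3 : Real.exp (1 / 2) ^ 2 ≤ 2 ^ 2 := by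
            rw [← Real.exp_nat_mul]
            norm_num
            linarith [Real.exp_one_lt_d9]
          exact le_of_sq_le_sq h3 (by norm_num)
  have hκ : 10 ^ 12 * (D:ℝ) * (5 * θ) ≤ 1 := by linarith
  have hrpos : ∀ s, 0 < r s := by
    intro s
    have h3 := (abs_le.1 (hr2 s)).1
    linarith
  have hr1' : ∑ s, μ.real {s} * (r s)⁻¹ = 1 := by
    rw [← hr1, Vale.Agent.P050.R2.H111.integral_one (w := fun s => μ.real {s}) (fun _ => rfl)]
  have h2 := H261.one_le_of_ent (hwt m hm μ U _ _ hat2 hU) (hE m hm μ U _ _ hat2 hU hη hκ)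
    hrpos hr1' fun v => H.degree v - 1
  have hp0 : 0 ≤ pden W := by
    unfold pden
    exact div_nonneg (Finset.sum_nonneg fun x _ => Finset.sum_nonneg fun y _ => h0 x y)
      (by positivity)
  rw [ht, Vale.Agent.P050.R2.H111.integral_piM (w := fun s => μ.real {s}) (fun _ => rfl)]
  calc pden W ^ H.edgeFinset.card = pden W ^ H.edgeFinset.card * 1 := (mul_one _).symm
    _ ≤ _ := mul_le_mul_of_nonneg_left h2 (pow_nonneg hp0 _)

end Vale.Agent.P050.Opt
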