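import Vale.Agent.P050.O.H261.Walk
import Mathlib.Analysis.SpecialFunctions.Log.Basic

set_option linter.all false

/-!
Walks of any length (Blakley, Roy).
-/

open Finset

namespace Vale.Agent.P050.Opt.H261

open Vale.Agent.P050 Vale.Agent.P050.Dense Vale.Agent.P050.Opt

theorem jensen_log {ι : Type} [Fintype ι] (p a : ι → ℝ) (hp : ∀ i, 0 ≤ p i)
    (h1 : ∑ i, p i = 1) (ha0 : ∀ i, 0 ≤ a i) (ha : ∀ i, 0 < p i → 0 < a i) :
    ∑ i, p i * Real.log (a i) ≤ Real.log (∑ i, p i * a i) ∧ 0 < ∑ i, p i * a i := by
  have hb : 0 < ∑ i, p i * a i := by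
    obtain ⟨i, -, hi⟩ : ∃ i ∈ (Finset.univ : Finset ι), 0 < p i := by
      by_contra h
      push Not at h
      have h2 : ∑ i, p i ≤ 0 := Finset.sum_nonpos fun i hi => h i hi
      linarith
    exact Finset.sum_pos' (fun j _ => mul_nonneg (hp j) (ha0 j))
      ⟨i, Finset.mem_univ _, mul_pos hi (ha i hi)⟩
  refine ⟨?_, hb⟩
  set b := ∑ i, p i * a i with hbd
  have h2 : ∀ i, p i * Real.log (a i) ≤ p i * Real.log b + (p i * a i) / b - p i := by
    intro i
    rcases (hp i).eq_or_lt with h | h
    · rw [← h]; simp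
    · have h3 := Real.log_le_sub_one_of_pos (div_pos (ha i h) hb)
      rw [Real.log_div (ha i h).ne' hb.ne'] at h3
      have h4 := mul_le_mul_of_nonneg_left h3 h.le
      have h5 : p i * (a i / b - 1) = (p i * a i) / b - p i := by ring
      rw [h5] at h4
      linarith
  calc ∑ i, p i * Real.log (a i)
      ≤ ∑ i, (p i * Real.log b + (p i * a i) / b - p i) := Finset.sum_le_sum fun i _ => h2 i
    _ = Real.log b := by
        rw [Finset.sum_sub_distrib, Finset.sum_add_distrib, ← Finset.sum_mul, ← Finset.sum_div,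
          h1, ← hbd, div_self hb.ne']
        ring

section

variable {X : Type} [Fintype X] [DecidableEq X]

/-- the number of weighted walks from a point -/
noncomputable def uk (A : Matrix X X ℝ) (n : ℕ) (x : X) : ℝ := ∑ y, (A ^ n) x y

theorem uk_zero (A : Matrix X X ℝ) (x : X) : uk A 0 x = 1 := by
  unfold uk
  simp [Matrix.one_apply]

theorem uk_succ (A : Matrix X X ℝ) (n : ℕ) (x : X) :
    uk A (n + 1) x = ∑ y, A x y * uk A n y := by
  unfold uk
  simp only [pow_succ', Matrix.mul_apply, Finset.mul_sum]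
  exact Finset.sum_comm

theorem uk_nonneg {A : Matrix X X ℝ} (h0 : ∀ x y, 0 ≤ A x y) (n : ℕ) (x : X) : 0 ≤ uk A n x := by
  induction n generalizing x with
  | zero => rw [uk_zero]; exact zero_le_one
  | succ n ih =>
    rw [uk_succ]
    exact Finset.sum_nonneg fun y _ => mul_nonneg (h0 x y) (ih y)

theorem uk_pos {A : Matrix X X ℝ} (h0 : ∀ x y, 0 ≤ A x y) (hs : ∀ x y, A x y = A y x) (n : ℕ)
    (x : X) (hx : 0 < ∑ y, A x y) : 0 < uk A n x := by
  induction n generalizing x with
  | zero => rw [uk_zero]; exact zero_lt_one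
  | succ n ih =>
    rw [uk_succ]
    obtain ⟨y, -, hy⟩ : ∃ y ∈ (Finset.univ : Finset X), 0 < A x y := by
      by_contra h
      push Not at h
      have h2 : ∑ y, A x y ≤ 0 := Finset.sum_nonpos fun y hy => h y hy
      linarith
    have h3 : 0 < ∑ z, A y z :=
      Finset.sum_pos' (fun z _ => h0 y z) ⟨x, Finset.mem_univ _, by rw [hs]; exact hy⟩
    exact Finset.sum_pos' (fun z _ => mul_nonneg (h0 x z) (uk_nonneg h0 n z))
      ⟨y, Finset.mem_univ _, mul_pos hy (ih y h3)⟩

/-- the logarithmic mean -/
theorem log_uk {A : Matrix X X ℝ} (h0 : ∀ x y, 0 ≤ A x y) (hs : ∀ x y, A x y = A y x)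
    (m : ℕ) :
    (m : ℝ) * ∑ x, (∑ y, A x y) * Real.log (∑ y, A x y)
      ≤ ∑ x, (∑ y, A x y) * Real.log (uk A m x) := by
  induction m with
  | zero => simp [uk_zero]
  | succ m ih =>
    have h1 : ∀ x, (∑ y, A x y) * Real.log (∑ y, A x y) + ∑ y, A x y * Real.log (uk A m y)
        ≤ (∑ y, A x y) * Real.log (uk A (m + 1) x) := by
      intro x
      have hd : 0 ≤ ∑ y, A x y := Finset.sum_nonneg fun y _ => h0 x y
      rcases hd.eq_or_lt with h | h
      · have h2 : ∀ y, A x y = 0 := by
          intro y
          have h3 := (Finset.sum_eq_zero_iff_of_nonneg fun z _ => h0 x z).1 h.symm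
          exact h3 y (Finset.mem_univ _)
        simp [h2]
      · obtain ⟨h3, h4⟩ := jensen_log (fun y => A x y / ∑ z, A x z) (uk A m)
          (fun y => div_nonneg (h0 x y) h.le) (by rw [← Finset.sum_div, div_self h.ne'])
          (uk_nonneg h0 m) (fun y hy => by
            have h5 : 0 < A x y := by
              by_contra h6
              have h7 : A x y = 0 := le_antisymm (not_lt.1 h6) (h0 x y)
              rw [h7, zero_div] at hy
              exact lt_irrefl _ hy
            refine uk_pos h0 hs m y ?_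
            exact Finset.sum_pos' (fun z _ => h0 y z)
              ⟨x, Finset.mem_univ _, by rw [hs]; exact h5⟩)
        have h5 : uk A (m + 1) x = (∑ y, A x y) * ∑ y, A x y / (∑ z, A x z) * uk A m y := by
          rw [uk_succ, Finset.mul_sum]
          refine Finset.sum_congr rfl fun y _ => ?_
          field_simp
        rw [h5, Real.log_mul h.ne' h4.ne', mul_add]
        refine add_le_add le_rfl ?_
        have h6 := mul_le_mul_of_nonneg_left h3 h.le
        refine le_trans (le_of_eq ?_) h6
        rw [Finset.mul_sum]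
        refine Finset.sum_congr rfl fun y _ => ?_
        field_simp
    have h2 := Finset.sum_le_sum fun x (_ : x ∈ (Finset.univ : Finset X)) => h1 x
    rw [Finset.sum_add_distrib] at h2
    have h3 : ∑ x, ∑ y, A x y * Real.log (uk A m y)
        = ∑ x, (∑ y, A x y) * Real.log (uk A m x) := by
      rw [Finset.sum_comm]
      refine Finset.sum_congr rfl fun y _ => ?_
      rw [Finset.sum_mul]
      refine Finset.sum_congr rfl fun x _ => ?_
      rw [hs]
    rw [h3] at h2
    push_cast
    linarith

end

/-- walks of any length -/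
theorem pden_kpow {X : Type} [Fintype X] [DecidableEq X] [Nonempty X] {W : X → X → ℝ}
    (hs : ∀ x y, W x y = W y x) (h0 : ∀ x y, 0 ≤ W x y) {k : ℕ} (hk : 1 ≤ k) :
    pden W ^ k ≤ pden (kpow W k) := by
  have hA : (Matrix.of W).transpose = Matrix.of W := by
    ext a b
    exact hs b a
  obtain ⟨j, rfl⟩ : ∃ j, k = j + 1 := ⟨k - 1, by omega⟩
  set n : ℝ := (Fintype.card X : ℝ) with hn
  have hn0 : 0 < n := by
    rw [hn]
    exact_mod_cast Fintype.card_pos
  set S : ℝ := ∑ x, ∑ y, W x y with hS
  have hS0 : 0 ≤ S := Finset.sum_nonneg fun x _ => Finset.sum_nonneg fun y _ => h0 x y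
  have e1 : pden W = S / n ^ 2 := rfl
  have e2 : pden (kpow W (j + 1)) = wk (Matrix.of W) (j + 1) / n ^ j / n ^ 2 := by
    unfold pden wk kpow
    simp only [Finset.sum_div, Nat.add_sub_cancel]
    rfl
  have e3 : wk (Matrix.of W) (j + 1) = ∑ x, (∑ y, W x y) * uk (Matrix.of W) j x := by
    rw [show j + 1 = 1 + j from by ring, wk_add hA 1 j]
    simp only [pow_one, Matrix.of_apply]
    rfl
  have h00 : ∀ x y, 0 ≤ (Matrix.of W) x y := h0
  have hss : ∀ x y, (Matrix.of W) x y = (Matrix.of W) y x := hs
  have key : S * (S / n) ^ j ≤ wk (Matrix.of W) (j + 1) := by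
    rcases hS0.eq_or_lt with h | h
    · rw [← h, zero_mul, e3]
      exact Finset.sum_nonneg fun x _ =>
        mul_nonneg (Finset.sum_nonneg fun y _ => h0 x y) (uk_nonneg h00 j x)
    · have hp : ∀ x, 0 ≤ (∑ y, W x y) / S := fun x =>
        div_nonneg (Finset.sum_nonneg fun y _ => h0 x y) h.le
      have hp1 : ∑ x, (∑ y, W x y) / S = 1 := by
        rw [← Finset.sum_div, ← hS, div_self h.ne']
      have hpos : ∀ x, 0 < (∑ y, W x y) / S → 0 < ∑ y, W x y := by
        intro x hx
        have := mul_pos hx h
        rwa [div_mul_cancel₀ _ h.ne'] at this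
      -- the mean of the logarithm of the degree
      obtain ⟨h1, h2⟩ := jensen_log (fun x => (∑ y, W x y) / S) (fun x => 1 / ∑ y, W x y) hp hp1
        (fun x => div_nonneg zero_le_one (Finset.sum_nonneg fun y _ => h0 x y))
        (fun x hx => one_div_pos.2 (hpos x hx))
      have h3 : ∑ x, (∑ y, W x y) / S * (1 / ∑ y, W x y) ≤ n / S := by
        calc ∑ x, (∑ y, W x y) / S * (1 / ∑ y, W x y) ≤ ∑ x : X, 1 / S := by
              refine Finset.sum_le_sum fun x _ => ?_
              rw [div_mul_eq_mul_div, mul_one_div]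
              refine div_le_div_of_nonneg_right ?_ h.le
              exact div_self_le_one _
          _ = n / S := by
              rw [Finset.sum_const, Finset.card_univ, nsmul_eq_mul, mul_one_div]
      have h4 : Real.log (S / n) ≤ ∑ x, (∑ y, W x y) / S * Real.log (∑ y, W x y) := by
        have h5 := h1.trans (Real.log_le_log h2 h3)
        have h6 : Real.log (S / n) = - Real.log (n / S) := by
          rw [← Real.log_inv, inv_div]
        have h7 : ∑ x, (∑ y, W x y) / S * Real.log (1 / ∑ y, W x y)
            = - ∑ x, (∑ y, W x y) / S * Real.log (∑ y, W x y) := by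
          rw [← Finset.sum_neg_distrib]
          refine Finset.sum_congr rfl fun x _ => ?_
          rw [one_div, Real.log_inv, mul_neg]
        rw [h7] at h5
        rw [h6]
        linarith
      obtain ⟨h8, h9⟩ := jensen_log (fun x => (∑ y, W x y) / S) (uk (Matrix.of W) j) hp hp1
        (uk_nonneg h00 j) (fun x hx => uk_pos h00 hss j x (hpos x hx))
      have h10 : wk (Matrix.of W) (j + 1)
          = S * ∑ x, (∑ y, W x y) / S * uk (Matrix.of W) j x := by
        rw [e3, Finset.mul_sum]
        refine Finset.sum_congr rfl fun x _ => ?_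
        field_simp
      have h11 : (j : ℝ) * Real.log (S / n)
          ≤ Real.log (∑ x, (∑ y, W x y) / S * uk (Matrix.of W) j x) := by
        refine le_trans ?_ h8
        have h12 := log_uk h00 hss j
        have h13 : ∑ x, (∑ y, W x y) / S * Real.log (uk (Matrix.of W) j x)
            = (∑ x, (∑ y, W x y) * Real.log (uk (Matrix.of W) j x)) / S := by
          rw [Finset.sum_div]
          exact Finset.sum_congr rfl fun x _ => by ring
        have h14 : ∑ x, (∑ y, W x y) / S * Real.log (∑ y, W x y)
            = (∑ x, (∑ y, W x y) * Real.log (∑ y, W x y)) / S := by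
          rw [Finset.sum_div]
          exact Finset.sum_congr rfl fun x _ => by ring
        rw [h14] at h4
        rw [h13]
        calc (j : ℝ) * Real.log (S / n)
            ≤ (j : ℝ) * ((∑ x, (∑ y, W x y) * Real.log (∑ y, W x y)) / S) :=
              mul_le_mul_of_nonneg_left h4 (Nat.cast_nonneg _)
          _ = ((j : ℝ) * ∑ x, (∑ y, W x y) * Real.log (∑ y, W x y)) / S := by ring
          _ ≤ _ := div_le_div_of_nonneg_right h12 h.le
      have h15 : (S / n) ^ j ≤ ∑ x, (∑ y, W x y) / S * uk (Matrix.of W) j x := by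
        rw [← Real.log_le_log_iff (pow_pos (div_pos h hn0) j) h9, Real.log_pow]
        exact h11
      rw [h10]
      exact mul_le_mul_of_nonneg_left h15 h.le
  rw [e1, e2]
  have h16 : (S / n ^ 2) ^ (j + 1) = S * (S / n) ^ j / n ^ j / n ^ 2 := by
    rw [div_pow, div_pow, pow_succ S j, pow_succ (n ^ 2) j, ← pow_mul]
    field_simp
    ring
  rw [h16]
  exact div_le_div_of_nonneg_right (div_le_div_of_nonneg_right key (by positivity))
    (by positivity)

end Vale.Agent.P050.Opt.H261
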